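import Vale.Agent.P277Z.Rk.Sk

/-!
# P277, block GLC: local coordinates of the target, the locus of large rank is dense
-/

set_option linter.unusedSectionVars false

open scoped Manifold ContDiff Topology Classical
open Vale.Agent.P277 hiding Amin IsFlipR
open Vale.Agent.P272.K Vale.Agent.P285.H281.FD Set Filter Metric
open Vale.Agent.P277Z.Slc (Ind dd ind_iff_surj tendsto_symm at_chartAt dd_congr)
open Vale.Agent.P277Z.Glc (HolX Mf)

noncomputable section

namespace Vale.Agent.P277Z.Rk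

namespace CrdH

variable {n : ℕ} {W : Type} [TopologicalSpace W] [ChartedSpace (Cm n) W]

theorem dd_comp {N : ℕ} {t : Fin N → W → ℂ} {G : Cm N → ℂ} {x : W} (ht : ∀ a, Hol n (t a) x)
    (hG : AnalyticAt ℂ G fun a => t a x) {e : Chart n W} (he : At e x) :
    dd (fun y => G fun a => t a y) e x =
      ∑ a, fderiv ℂ G (fun a => t a x) (Pi.single a 1) • dd (t a) e x := by
  have h1 : HasFDerivAt (fun z a => t a (e.symm z))
      (ContinuousLinearMap.pi fun a => dd (t a) e x) (e x) :=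
    hasFDerivAt_pi.2 fun a => (ht a e he).differentiableAt.hasFDerivAt
  have h2 : HasFDerivAt G (fderiv ℂ G fun a => t a x) fun a => t a (e.symm (e x)) := by
    rw [e.left_inv he.2]; exact hG.differentiableAt.hasFDerivAt
  refine (h2.comp (e x) h1).fderiv.trans (ContinuousLinearMap.ext fun v => ?_)
  rw [ContinuousLinearMap.comp_apply, ← Finset.univ_sum_single
    (ContinuousLinearMap.pi (fun a => dd (t a) e x) v), map_sum, sum_apply]
  refine Finset.sum_congr rfl fun a _ => ?_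
  rw [← mul_one (ContinuousLinearMap.pi _ v a), ← smul_eq_mul, Pi.single_smul', map_smul]
  exact mul_comm _ _

theorem sub_ind {ι E : Type} [AddCommGroup E] [Module ℂ E] (f : ι → E) {s T : Finset ι}
    (hs : LinearIndependent ℂ fun i : s => f i) (h : ∀ i ∈ s, f i ∈ Submodule.span ℂ (f '' ↑T)) :
    ∃ s' ⊆ T, s'.card = s.card ∧ LinearIndependent ℂ fun i : s' => f i := by
  obtain ⟨b, h1, -, h2, h3⟩ := exists_linearIndepOn_extension (linearIndepOn_empty ℂ f)
    (empty_subset (T : Set ι))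
  lift b to Finset ι using T.finite_toSet.subset h1
  have h4 := linearIndependent_le_span_aux' _ hs (↑(b.image f) : Set E) (by
    rintro _ ⟨i, rfl⟩
    rw [Finset.coe_image]
    exact Submodule.span_le.2 h2 (h i i.2))
  simp only [Finset.coe_sort_coe, Fintype.card_coe] at h4
  obtain ⟨s', h5, h6⟩ := Finset.exists_subset_card_eq (h4.trans Finset.card_image_le)
  exact ⟨s', h5.trans h1, h6, LinearIndepOn.mono h3 h5⟩

/-- independence on a connected open set holds densely or nowhere -/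
theorem freq_ind {α : Type} [Fintype α] {f : α → Cm n → ℂ} {B : Set (Cm n)} (hB : IsPreconnected B)
    (hf : ∀ a, AnalyticOnNhd ℂ (f a) B) {y z : Cm n} (hy : y ∈ B) (hz : z ∈ B)
    (h : LinearIndependent ℂ fun a => fderiv ℂ (f a) y) :
    ∃ᶠ w in 𝓝 z, LinearIndependent ℂ fun a => fderiv ℂ (f a) w := by
  choose v hv using fun b => (ind_iff_surj _).1 h (Pi.single b 1)
  let D : Cm n → ℂ := fun w => (Matrix.of fun a b => fderiv ℂ (f a) w (v b)).det
  have hD : AnalyticOnNhd ℂ D B := fun w hw => by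
    simp only [D, Matrix.det_apply', Matrix.of_apply]
    exact Finset.analyticAt_fun_sum _ fun σ _ => analyticAt_const.mul
      (Finset.analyticAt_fun_prod _ fun b _ =>
        ((ContinuousLinearMap.apply ℂ ℂ (v b)).analyticAt _).comp (hf _ w hw).fderiv)
  have h1 : D y = 1 := by
    rw [← Matrix.det_one (n := α)]
    exact congrArg Matrix.det (Matrix.ext fun a b =>
      (congrFun (hv b) a).trans (by simp [Matrix.one_apply, Pi.single_apply]))
  have h2 : ∃ᶠ w in 𝓝 z, D w ≠ 0 := fun k => one_ne_zero (h1.symm.trans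
    (hD.eqOn_zero_of_preconnected_of_eventuallyEq_zero hB hz (k.mono fun _ => not_not.1) hy))
  refine h2.mono fun w hw => LinearIndependent.of_comp
    (LinearMap.pi fun b => (ContinuousLinearMap.apply ℂ ℂ (v b)).toLinearMap) ?_
  exact Matrix.linearIndependent_rows_of_det_ne_zero hw

end CrdH

open CrdH

theorem crd : StCrd := by
  intro d W X p O x₀ hp hO h0
  obtain ⟨N, U₀, u, hx, hu⟩ := exists_isCoord X (p x₀)
  replace hu := hu.mono (hu.isOpen.inter hO) inter_subset_left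
  set U := U₀ ∩ O
  have hx' : p x₀ ∈ U := ⟨hx, h0⟩
  have hT : ∀ a, u a ∘ p ∈ Finset.univ.image fun a => u a ∘ p :=
    fun a => Finset.mem_image_of_mem _ (Finset.mem_univ a)
  refine ⟨p ⁻¹' U, Finset.univ.image fun a => u a ∘ p, ⟨hu.isOpen.preimage hp.1, hx', ?_, ?_,
    fun x h1 y h2 h3 => hu.injOn h2 h1 (funext fun a => h3 _ (hT a)), ?_⟩, fun _ h => h.2⟩
  · intro x h1 g h2
    obtain ⟨a, -, rfl⟩ := Finset.mem_image.1 h2
    exact ⟨u a, hu.hol a _ h1, EventuallyEq.rfl⟩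
  · rintro x h1 g ⟨φ, h2, h3⟩ e he
    obtain ⟨G, h4, h5⟩ := (hu.iff _ h1 φ).1 h2
    rw [dd_congr (h3.trans (hp.1.continuousAt.eventually h5)) he]
    refine (dd_comp (t := fun a => u a ∘ p) (fun a => hp.2 x _ (hu.hol a _ h1)) h4 he).symm ▸
      Submodule.sum_mem _ fun a _ => Submodule.smul_mem _ _ (Submodule.subset_span ⟨_, hT a, rfl⟩)
  · obtain ⟨K, h1, h2, h3⟩ := local_compact_nhds (hu.isOpen.mem_nhds hx')
    have h4 : ((↑) : U → X.pt) ⁻¹' K ∈ 𝓝 ⟨p x₀, hx'⟩ := continuous_subtype_val.continuousAt h1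
    rw [hu.emb.nhds_eq_comap] at h4
    obtain ⟨B, h5, h6⟩ := h4
    obtain ⟨ε, h7, h8⟩ := nhds_basis_closedBall.mem_iff.1 h5
    refine ⟨ε ^ 2, by positivity, p ⁻¹' K, preimage_mono h2,
      (h3.isClosed.preimage hp.1).isCompact, fun x h9 k => h6 (a := ⟨p x, h9⟩) (h8 ?_)⟩
    refine (dist_pi_le_iff h7.le).2 fun a => ?_
    rw [dist_eq_norm]
    exact (sq_le_sq₀ (norm_nonneg _) h7.le).1 ((Finset.single_le_sum
      (f := fun g : W.T → ℂ => ‖g x - g x₀‖ ^ 2) (fun _ _ => sq_nonneg _) (hT a)).trans k)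

theorem dense_of (h : StCrd) : StDense := by
  intro d W X p m hp ⟨x₁, h1⟩ x
  suffices k : IsClopen {x | ∃ᶠ y in 𝓝 x, RkAt d X p m y} from
    (k.eq_univ ⟨x₁, fun e => e.self_of_nhds h1⟩).ge (mem_univ x)
  refine ⟨isOpen_setOfPred_eventually_nhds.isClosed_compl, isOpen_iff_mem_nhds.2 fun x hx => ?_⟩
  obtain ⟨V, T, hc, -⟩ := h d W X p univ x hp isOpen_univ trivial
  have he := at_chartAt (n := d) x
  set e := chartAt (Cm d) x
  obtain ⟨ρ, h2, h3⟩ := Metric.mem_nhds_iff.1 (inter_mem (e.open_target.mem_nhds (e.map_source he.2))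
    (tendsto_symm he (hc.isOpen.mem_nhds hc.mem)))
  have h4 : ∀ᶠ y in 𝓝 x, At e y ∧ e y ∈ ball (e x) ρ :=
    (Slc.At.near he).and (e.continuousAt he.2 (ball_mem_nhds _ h2))
  have h5 : ∀ z ∈ ball (e x) ρ, At e (e.symm z) ∧ ∀ g ∈ T, Hol d g (e.symm z) := fun z hz =>
    ⟨⟨he.1, e.map_target (h3 hz).1⟩, fun g hg e' he' => by
      obtain ⟨φ, k1, k2⟩ := hc.fn _ (h3 hz).2 hg
      exact (hp.2 _ φ k1 e' he').congr ((tendsto_symm he').eventually k2.symm)⟩
  obtain ⟨y, ⟨s, a1, rfl, a2⟩, a3, a4⟩ := (hx.and_eventually h4).exists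
  have a5 : y ∈ V := e.left_inv a3.2 ▸ (h3 a4).2
  obtain ⟨s', b1, b2, b3⟩ := sub_ind (fun g => dd g e y) (a2.2 e a3)
    fun g hg => hc.span y a5 g (a1 hg) e a3
  filter_upwards [h4] with z hz
  refine (tendsto_symm hz.1).frequently (((freq_ind (f := fun (g : s') w => g.1 (e.symm w))
    (convex_ball _ _).isPreconnected (fun g w hw => ?_) a4 hz.2 b3).and_eventually
      (isOpen_ball.mem_nhds hz.2)).mono fun w hw => ⟨s', fun g hg => hc.fn _ (h3 hw.2).2 (b1 hg), b2,
        Ind.of_chart (fun g => (h5 w hw.2).2 g (b1 g.2)) (h5 w hw.2).1 ?_⟩)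
  · simpa only [e.right_inv (h3 hw).1] using (h5 w hw).2 g (b1 g.2) e (h5 w hw).1
  · simpa only [dd, e.right_inv (h3 hw.2).1] using hw.1

end Vale.Agent.P277Z.Rk
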