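import Vale.Agent.P277Z.Rk.Sk
import Vale.Agent.P277Z.Val.RkB

/-!
# P277, block GLC: the critical values of a modification
-/

open scoped Manifold ContDiff Topology Classical
open Vale.Agent.P272.K Vale.Agent.P277 Set Filter Metric
open Vale.Agent.P277.PH (HolF at_chartAt ev_symm)
open Vale.Agent.P277.T3 (ThinM)
open Vale.Agent.P277.H762 (Cv cv_iUnion)
open Vale.Agent.P277Z.Val Vale.Agent.P277Z.Val.U Vale.Agent.P277Z.Val.Rk
open Vale.Agent.P277Z.Glc (Mf)
open Vale.Agent.P277Z.Slc (LEq Ind dd)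
open Vale.Agent.P277.H60.Z (XH)

noncomputable section

namespace Vale.Agent.P277Z.Rk.Cr

theorem cv_crit1 {n : ℕ} {f : Cm 1 → Cm n} {U : Set (Cm 1)} (hU : IsOpen U)
    (hf : ∀ z ∈ U, AnalyticAt ℂ f z) :
    Cv 0 (f '' {z | z ∈ U ∧ ¬ Function.Injective (fderiv ℂ f z)}) := by
  refine cv_image_local fun q hq => ?_
  obtain ⟨r, hr, hB⟩ := Metric.isOpen_iff.1 hU q hq.1
  have hfB : ∀ z ∈ ball q r, AnalyticAt ℂ f z := fun z hz => hf z (hB hz)
  refine ⟨ball q r, ball_mem_nhds q hr, ?_⟩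
  by_cases h2 : ∃ q' ∈ ball q r, ∃ v i, fderiv ℂ f q' v i ≠ 0
  · obtain ⟨q', e1, v, i, e2⟩ := h2
    have ha : ∀ z ∈ ball q r, AnalyticAt ℂ (fun z => fderiv ℂ f z v i) z := fun z hz =>
      analyticAt_pi_iff.1 (((ContinuousLinearMap.apply ℂ (Cm n) v).analyticAt _).comp
        (hfB z hz).fderiv) i
    refine ((cv_zero ha e1 e2).image isOpen_ball (fun z hz => hz.1) hfB).mono
      (image_mono fun z hz => ⟨hz.1, by_contra fun c => hz.2.2 ?_⟩)
    refine (injective_iff_map_eq_zero _).2 fun x hx => by_contra fun c' => c ?_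
    have h3 : x 0 ≠ 0 := fun e => c' (funext fun a => by rwa [Subsingleton.elim a 0])
    have h4 : v = (v 0 / x 0) • x := funext fun a => by
      rw [Subsingleton.elim a 0, Pi.smul_apply, smul_eq_mul, div_mul_cancel₀ _ h3]
    rw [h4, map_smul, hx, smul_zero, Pi.zero_apply]
  · push Not at h2
    refine (cv_single (Ω := (univ : Set (Cm 0))) (g := fun _ => f q) isOpen_univ
      fun _ _ => analyticAt_const).mono ?_
    rintro _ ⟨z, hz, rfl⟩
    refine ⟨0, mem_univ _, isOpen_ball.is_const_of_fderiv_eq_zero (𝕜 := ℂ)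
      (convex_ball q r).isPreconnected
      (fun y hy => (hfB y hy).differentiableAt.differentiableWithinAt)
      (fun y hy => ?_) (mem_ball_self hr) hz.1⟩
    ext v i
    exact h2 y hy _ i

theorem cv_critk {k n : ℕ} (hk : k ≤ 1) {f : Cm (k + 1) → Cm n} {U : Set (Cm (k + 1))}
    (hU : IsOpen U) (hf : ∀ z ∈ U, AnalyticAt ℂ f z) :
    Cv k (f '' {z | z ∈ U ∧ ¬ Function.Injective (fderiv ℂ f z)}) := by
  interval_cases k
  exacts [cv_crit1 hU hf, cv_crit2 hU hf]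

/-- the critical values of a map which is an injective local isomorphism outside some coordinate
hyperplanes -/
theorem cv_crit {k : ℕ} (hk : k ≤ 1) {F : Cm (k + 2) → Cm (k + 2)} {U : Set (Cm (k + 2))}
    (hU : IsOpen U) (hF : ∀ z ∈ U, AnalyticAt ℂ F z) (J : Set (Fin (k + 2)))
    (h1 : ∀ z ∈ U, (∀ j ∈ J, z j ≠ 0) → LocIso F z)
    (h2 : ∀ z ∈ U, ∀ z' ∈ U, (∀ j ∈ J, z j ≠ 0) → F z = F z' → z = z') :
    Cv k (F '' {z | z ∈ U ∧ ¬ LocIso F z}) := by
  have k1 : ∀ l : Fin (k + 2) × Fin (k + 1),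
      Cv k (F '' (U ∩ (fun t => ins l.1 (ins l.2 t)) '' univ)) := fun l =>
    Cv.image (U := U) ((cv_single isOpen_univ fun t _ => ((ins l.1).analyticAt _).comp
      ((ins l.2).analyticAt t)).mono inter_subset_right) hU inter_subset_left hF
  have k2 : ∀ j : Fin (k + 2), Cv k ((fun p => F (ins j p)) '' {p | p ∈ ins j ⁻¹' U ∧
      ¬ Function.Injective (fderiv ℂ (fun p => F (ins j p)) p)}) := fun j => cv_critk hk
    (hU.preimage (ins j).continuous) fun p hp => (hF _ hp).comp ((ins j).analyticAt p)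
  refine ((cv_iUnion k1).union (cv_iUnion k2)).mono ?_
  rintro _ ⟨z, ⟨hz, hz'⟩, rfl⟩
  obtain ⟨j, hj, hj0⟩ : ∃ j ∈ J, z j = 0 := by
    by_contra hcon
    push Not at hcon
    exact hz' (h1 z hz hcon)
  by_cases h3 : ∃ j' ≠ j, z j' = 0
  · obtain ⟨j', e1, e2⟩ := h3
    obtain ⟨a, rfl⟩ := Fin.exists_succAbove_eq e1
    exact Or.inl (mem_iUnion.2 ⟨(j, a), z, ⟨hz, del a (del j z), trivial, by
      simp only [ins_del (w := del j z) e2, ins_del hj0]⟩, rfl⟩)
  · push Not at h3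
    refine Or.inr (mem_iUnion.2 ⟨j, del j z, ⟨?_, fun hinj => hz' ?_⟩, congrArg F (ins_del hj0)⟩)
    · show ins j (del j z) ∈ U
      rwa [ins_del hj0]
    · have e1 : ∀ᶠ w in 𝓝 z, w ∈ U ∧ ∀ j' ≠ j, w j' ≠ 0 := by
        refine (hU.eventually_mem hz).and (eventually_all.2 fun j' => ?_)
        by_cases e2 : j' = j
        · exact Eventually.of_forall fun w h => (h e2).elim
        · exact ((continuous_apply j').continuousAt.eventually_ne (h3 j' e2)).mono fun w h _ => h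
      refine locIso_of_tan (hF z hz) hj0 e1 (fun w e2 w' e3 e4 _ e5 => ?_) fun v e2 e3 => ?_
      · refine h2 w e2.1 w' e3.1 (fun j' _ => ?_) e5
        by_cases e6 : j' = j
        · rwa [e6]
        · exact e2.2 j' e6
      · have e4 : HasFDerivAt (fun p => F (ins j p)) ((fderiv ℂ F z).comp (ins j)) (del j z) := by
          refine HasFDerivAt.comp (g := F) _ ?_ (ins j).hasFDerivAt
          rw [ins_del hj0]
          exact (hF z hz).differentiableAt.hasFDerivAt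
        rw [e4.fderiv] at hinj
        have e5 : del j v = 0 := (injective_iff_map_eq_zero _).1 hinj _ (by
          show fderiv ℂ F z (ins j (del j v)) = 0
          rwa [ins_del e2])
        rw [← ins_del e2, e5, map_zero]

variable {d : ℕ} {W' W : Mf d} {π : W'.T → W.T} {y : W'.T}

theorem holM (h : Bm W' W π) (y : W'.T) : Val.HolM d d π y := ⟨h.hol.1.continuousAt, h.hol.2 y⟩

theorem freqE (W : Mf d) (y : W.T) : ∃ᶠ x in 𝓝 y, x ∉ ⋃ l, W.G l :=
  (W.snc.freq ∅ (by simp)).mono fun x h => by simpa using h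

theorem freq1 {y : W.T} {l : Fin W.r} (hy : y ∈ W.G l) :
    ∃ᶠ x in 𝓝 y, x ∈ W.G l ∧ ∀ k, k ≠ l → x ∉ W.G k :=
  (W.snc.freq {l} (by simpa using hy)).mono fun x h =>
    ⟨(h l).2 rfl, fun k hk e => hk ((h k).1 e)⟩

section
variable {c' : W'.T → Cm d} {ξ' : Cm d → W'.T} {c : W.T → Cm d} {ξ : Cm d → W.T}

theorem et_iff (h : Bm W' W π) (h' : Val.Crd c' ξ' y) (hc : Val.Crd c ξ (π y)) :
    Et π y ↔ LocIso (fun w => c (π (ξ' w))) (c' y) := by
  have he' := crd_chart (at_chartAt (n := d) y)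
  have he := crd_chart (at_chartAt (n := d) (π y))
  exact ⟨fun hl => locIso_chg (holM h y) he' h' he hc ⟨an_loc (holM h y) he' he,
    hl _ _ (at_chartAt _) (at_chartAt _)⟩, fun hl e' e a b =>
      (locIso_chg (holM h y) h' (crd_chart a) hc (crd_chart b) hl).2⟩

end

theorem et_near (h : Bm W' W π) (hl : Et π y) : ∀ᶠ x in 𝓝 y, Et π x := by
  have he' := crd_chart (at_chartAt (n := d) y)
  have he := crd_chart (at_chartAt (n := d) (π y))
  filter_upwards [he'.eventually, h.hol.1.continuousAt.eventually he.eventually,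
    he'.cont.eventually ((et_iff h he' he).1 hl).eventually] with x a b c using (et_iff h a b).2 c

theorem closed_crit (h : Bm W' W π) : IsClosed {y | ¬ Et π y} :=
  isOpen_compl_iff.1 (isOpen_iff_mem_nhds.2 fun _ hy =>
    (et_near h (not_not.1 hy)).mono fun _ => not_not.2)

/-- a local section -/
theorem et_sec (h : Bm W' W π) (hl : Et π y) {c : W.T → Cm d} {ξ : Cm d → W.T}
    (hc : Val.Crd c ξ (π y)) : ∃ ξ', Val.Crd (fun y => c (π y)) ξ' y ∧
      ∀ᶠ z in 𝓝 (π y), π (ξ' (c z)) = z := by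
  have h' := crd_chart (at_chartAt (n := d) y)
  obtain ⟨ξ₂, h2⟩ := crd_pull (holM h y) h' hc ((et_iff h h' hc).1 hl)
  refine ⟨ξ₂, h2, ?_⟩
  filter_upwards [hc.cont.eventually h2.right, hc.left, (h.hol.1.continuousAt.tendsto.comp
    (h2.tend.comp hc.cont)).eventually hc.left] with z e1 e2 e3
  exact e3.symm.trans ((congrArg _ e1).trans e2)

theorem et_inj (h : Bm W' W π) (hl : Et π y) (y₁ : W'.T) (e : π y₁ = π y) : y₁ = y := by
  by_contra hne
  have hc := crd_chart (at_chartAt (n := d) (π y))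
  obtain ⟨σ, h1, h2⟩ := et_sec h hl hc
  obtain ⟨N₁, N, o1, o2, m1, m2, hd⟩ := t2_separation hne
  have h3 : Tendsto π (𝓝 y₁) (𝓝 (π y)) := e ▸ h.hol.1.continuousAt
  obtain ⟨y', e1, e2, e3, e4⟩ := ((freqE W' y₁).and_eventually ((h3.eventually h2).and
    ((((h1.tend.comp hc.cont).comp h3).eventually (o2.mem_nhds m2)).and (o1.mem_nhds m1)))).exists
  exact Set.disjoint_left.1 hd e4 (h.inj y' e1 _ e2 ▸ e3)

theorem nch_off {Φ : Chart d W.T} {ρ : ℝ} {lab : Fin W.r → Option (Fin d)} {y : W.T}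
    (h : Nch W.G y Φ ρ lab) {w : Cm d} (hw : w ∈ ball (0 : Cm d) ρ)
    (e : ∀ j ∈ {j | ∃ l, lab l = some j}, w j ≠ 0) : Φ.symm w ∉ ⋃ l, W.G l := fun a => by
  obtain ⟨l, b⟩ := mem_iUnion.1 a
  obtain ⟨i, c, c'⟩ := (h.iff _ (h.symm_mem hw).1 l).1 b
  exact e i ⟨l, c⟩ ((h.symm_mem hw).2 ▸ c')

theorem thin_crit {k : ℕ} (hk : k ≤ 1) {W' W : Mf (k + 2)} {π : W'.T → W.T} (h : Bm W' W π) :
    ThinM (k + 2) k (π '' {y | ¬ Et π y}) := by
  have : SecondCountableTopology W'.T :=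
    ChartedSpace.secondCountable_of_sigmaCompact (Cm (k + 2)) W'.T
  refine thinM_image_local fun y hy => ?_
  have he := at_chartAt (n := k + 2) (π y)
  set e := chartAt (Cm (k + 2)) (π y)
  obtain ⟨Φ, ρ, lab, hΦ, hs⟩ := W'.snc.nch y
    (h.hol.1.continuousAt.eventually (e.open_source.mem_nhds he.2))
  have k3 : ∀ p ∈ ball (0 : Cm (k + 2)) ρ, At e (π (Φ.symm p)) := fun p hp =>
    ⟨he.1, hs _ (hΦ.symm_mem hp).1⟩
  have k4 : ∀ p ∈ ball (0 : Cm (k + 2)) ρ, Et π (Φ.symm p) ↔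
      LocIso (fun w => e (π (Φ.symm w))) p := fun p hp => by
    rw [et_iff h (hΦ.crd _ (hΦ.symm_mem hp).1) (crd_chart (k3 p hp)), (hΦ.symm_mem hp).2]
  have k6 := cv_crit hk (F := fun w => e (π (Φ.symm w))) isOpen_ball (fun p hp => by
      simpa only [(hΦ.symm_mem hp).2] using
        an_loc (holM h _) (hΦ.crd _ (hΦ.symm_mem hp).1) (crd_chart (k3 p hp))) _
    (fun p hp e1 => (k4 p hp).1 (h.det _ (nch_off hΦ hp e1))) fun p hp p' hp' e1 e2 => by
      have e3 := congrArg Φ (h.inj _ (nch_off hΦ hp e1) _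
        (e.injOn (k3 p' hp').2 (k3 p hp).2 e2.symm))
      rw [(hΦ.symm_mem hp).2, (hΦ.symm_mem hp').2] at e3
      exact e3.symm
  refine ⟨_, hΦ.nhds, (H335.HY.thinM_of_cv he.1 k6 ?_).mono ?_⟩
  · rintro _ ⟨p, hp, rfl⟩
    exact e.map_source (k3 p hp.1).2
  · rintro _ ⟨x, ⟨e1, e2⟩, rfl⟩
    have e5 : Φ x ∈ ball (0 : Cm (k + 2)) ρ := hΦ.tgt ▸ Φ.map_source e1
    refine ⟨_, ⟨Φ x, ⟨e5, fun e7 => e2 ?_⟩, rfl⟩, ?_⟩
    · simpa only [Φ.left_inv e1] using (k4 _ e5).2 e7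
    · rw [e.left_inv (k3 _ e5).2, Φ.left_inv e1]

theorem ker_zero {S : Finset (W.T → ℂ)} {x : W.T} (h : IndS d S x) (hS : S.card = d)
    {a : Chart d W.T} (ha : At a x) {v : Cm d} (hv : ∀ g ∈ S, dd g a x v = 0) : v = 0 := by
  have h1 := (Slc.ind_iff_surj _).1 (h.2 a ha)
  refine (LinearMap.injective_iff_surjective_of_finrank_eq_finrank (f := ((ContinuousLinearMap.pi
    fun g : S => dd g.1 a x : Cm d →L[ℂ] S → ℂ) : Cm d →ₗ[ℂ] S → ℂ)) (by simp [hS])).2 h1 ?_
  rw [map_zero]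
  exact funext fun g => hv _ g.2

/-- maximal rank on a component at a general point -/
theorem et_of_rk {k : ℕ} {W' W : Mf (k + 1)} {π : W'.T → W.T} (h : Bm W' W π) {l : Fin W'.r}
    {y : W'.T} (h1 : RkGAt (k + 1) (XH (k + 1) W.T) π (W'.G l) k y)
    (h2 : ∀ j, j ≠ l → y ∉ W'.G j) : Et π y := by
  obtain ⟨s, s1, s2, hy, ζ, z1, z2, z3⟩ := h1
  have ha := at_chartAt (n := k + 1) y
  set a := chartAt (Cm (k + 1)) y
  have he := crd_chart (at_chartAt (n := k + 1) (π y))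
  set e := chartAt (Cm (k + 1)) (π y)
  obtain ⟨Φ, ρ, lab, hΦ, hl, -⟩ := W'.snc.nch1 hy 0 (Eventually.of_forall fun _ => trivial)
  have hc := hΦ.crd y hΦ.src
  have hF := an_loc (holM h y) hc he
  have h0 : Φ y 0 = 0 := congrFun hΦ.zero 0
  have h3 : ∀ᶠ x in 𝓝 y, x ∈ Φ.source ∧ Val.Crd e e.symm (π x) := Eventually.and hΦ.nhds
    (h.hol.1.continuousAt.eventually he.eventually)
  refine (et_iff h hc he).2 (locIso_of_tan hF h0 ((hc.tend.eventually h3).and hc.right)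
    (fun w b w' b' c _ c' => ?_) fun v b c => ?_)
  · rw [← b.2, ← b'.2, h.inj (Φ.symm w) (fun f => ?_) (Φ.symm w')
      (b'.1.2.inv.symm.trans ((congrArg _ c'.symm).trans b.1.2.inv))]
    obtain ⟨j, f⟩ := mem_iUnion.1 f
    by_cases g : j = l
    · exact c (b.2 ▸ (hΦ.iff1 hl b.1.1).1 (g ▸ f))
    · exact h2 j g (hΦ.sub b.1.1 f)
  have h4 := hc.chg (crd_chart ha)
  refine (injective_iff_map_eq_zero _).1 h4.inj v (ker_zero z3 (by
    rw [Finset.card_insert_of_notMem z2, s2]) ha fun g hg => ?_)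
  have h5 : HasFDerivAt (fun w => g (Φ.symm w)) ((dd g a y).comp
      (fderiv ℂ (fun w => a (Φ.symm w)) (Φ y))) (Φ y) := by
    refine (HasFDerivAt.comp (g := fun z => g (a.symm z)) (f := fun w => a (Φ.symm w)) _ ?_
      h4.1.differentiableAt.hasFDerivAt).congr_of_eventuallyEq ?_
    · rw [hc.inv]
      exact (z3.1 ⟨g, hg⟩ a ha).differentiableAt.hasFDerivAt
    · filter_upwards [hc.tend.eventually (crd_chart ha).left] with w b using congrArg g b.symm
  change ((dd g a y).comp _) v = 0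
  rcases Finset.mem_insert.1 hg with rfl | hg
  · have h6 : HasFDerivAt (fun p => g (Φ.symm (ins 0 p))) _ (del 0 (Φ y)) := HasFDerivAt.comp
      (g := fun w => g (Φ.symm w)) _ (by rw [ins_del h0]; exact h5) (ins 0).hasFDerivAt
    have h7 : Tendsto (ins 0) (𝓝 (del 0 (Φ y))) (𝓝 (Φ y)) := by
      simpa only [ins_del h0] using (ins 0).continuous.tendsto (del 0 (Φ y))
    have h8 := h6.unique ((hasFDerivAt_const (0 : ℂ) _).congr_of_eventuallyEq (by
      filter_upwards [h7.eventually ((hc.tend.eventually (z1.1.and h3)).and hc.right)] with p f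
      exact f.1.1.2 ((hΦ.iff1 hl f.1.2.1).2 (by rw [f.2, ins_same]))))
    rw [← ins_del b]
    exact congrArg (fun L : Cm k →L[ℂ] ℂ => L (del 0 v)) h8
  · obtain ⟨φ, f1, f2⟩ := s1 hg
    have h6 := he.an.hol (by rw [he.inv]; exact f1)
    rw [h5.unique ((HasFDerivAt.comp (g := fun w => φ (e.symm w))
      (f := fun w => e (π (Φ.symm w))) _ (by rw [hc.inv]; exact h6.differentiableAt.hasFDerivAt)
      hF.differentiableAt.hasFDerivAt).congr_of_eventuallyEq (by
        filter_upwards [hc.tend.eventually (f2.and h3)] with w f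
          using f.1.trans (congrArg φ f.2.2.inv.symm))),
      ContinuousLinearMap.comp_apply, c, map_zero]

theorem rk_near {X : CSp} {p : W.T → X.pt} (hp : Continuous p) {G : Set W.T} {m : ℕ} {x : W.T}
    (h : RkGAt d X p G m x) : ∀ᶠ y in 𝓝 x, y ∈ G → RkGAt d X p G m y := by
  obtain ⟨s, s1, s2, -, ζ, z1, z2, z3⟩ := h
  have h1 : ∀ᶠ y in 𝓝 x, ∀ g ∈ s, g ∈ Fn X p y := (eventually_all_finset s).2 fun g hg => by
    obtain ⟨φ, f1, f2⟩ := s1 hg
    filter_upwards [hp.continuousAt.eventually (hol_eventually f1), f2.eventually_nhds] with y a b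
      using ⟨φ, a, b⟩
  filter_upwards [h1, z1.near, Ind.near z3] with y a b c e using ⟨s, a, s2, e, ζ, b, z2, c⟩

end Vale.Agent.P277Z.Rk.Cr

namespace Vale.Agent.P277Z.Rk

open Cr in
/-- (CRIT) -/
theorem crit : StCrit := by
  intro k W' W π hk h
  refine ⟨thin_crit hk h, closed_crit h, fun y => et_inj h, fun l ⟨x, hx⟩ => ?_⟩
  obtain ⟨y, ⟨a, b⟩, c⟩ := ((freq1 (let ⟨_, _, _, e, _⟩ := hx; e)).and_eventually
    (rk_near h.hol.1 hx)).exists
  exact ⟨y, a, et_of_rk h (c a) b, b⟩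

end Vale.Agent.P277Z.Rk
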