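import Vale.Agent.P277Z.Rk.Sk
import Vale.Agent.P277Z.Val.Big
import Vale.Agent.P277Z.Val.Rank
import Vale.Agent.P277Z.Val.Fin

/-!
# P277, block GLC: rank and dimension of the image
-/

set_option linter.unusedSectionVars false

open scoped Manifold ContDiff Topology Classical
open Vale.Agent.P277 hiding Amin IsFlipR
open Vale.Agent.P272.K Vale.Agent.P285.H281.FD Set Filter Metric
open Vale.Agent.P277.H762 (Cv not_cv_nhds)
open Vale.Agent.P277Z.Slc (LEq Ind dd ind_iff_surj tendsto_symm at_chartAt)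
open Vale.Agent.P277Z.Glc (HolX Mf)
open Vale.Agent.P277Z.Val (IsSnc AnM Nch inc tl)

noncomputable section

namespace Vale.Agent.P277Z.Rk

namespace DimH

variable {X : CSp}

theorem cv_val {β : Type} [Fintype β] {k : ℕ} (φ : β → X.pt → ℂ) {Z : Set X.pt}
    (hZ : DimLe X k Z) : Cv k ((fun y b => φ b y) '' (Z ∩ {y | ∀ b, X.Hol (φ b) y})) := by
  obtain ⟨Ω, G, h1, h2, h3⟩ := hZ
  refine ⟨fun l => {p | p ∈ Ω l ∧ ∀ b, X.Hol (φ b) (G l p)}, fun l p b => φ b (G l p),
    fun l => isOpen_iff_eventually.2 fun p hp => ((h1 l).eventually_mem hp.1).and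
      ((h2 l p hp.1).1.eventually (eventually_all.2 fun b => hol_eventually (hp.2 b))),
    fun l p hp => AnalyticAt.pi fun b => (h2 l p hp.1).analyticAt (hp.2 b), ?_⟩
  rintro _ ⟨y, hy, rfl⟩
  obtain ⟨l, q, hq, rfl⟩ := mem_iUnion.1 (h3 hy.1)
  exact mem_iUnion.2 ⟨l, q, ⟨hq, hy.2⟩, rfl⟩

variable {n : ℕ} {W : Type} [TopologicalSpace W] [ChartedSpace (Cm n) W] {p : W → X.pt} {x : W}

/-- the image of a set which contains a fibre of `t \ s` has dimension at least `card s` -/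
theorem key {s t : Finset (W → ℂ)} (hp : ContinuousAt p x) (hst : s ⊆ t) (hs : ↑s ⊆ Fn X p x)
    (ht : IndS n t x) {S : Set W} (hS : ∀ᶠ y in 𝓝 x, (∀ g ∈ t, g ∉ s → g y = g x) → y ∈ S)
    {m : ℕ} (hm : m < s.card) : ¬ DimLe X m (p '' S) := fun hd => by
  choose φ h1 h2 using fun g : s => hs g.2
  have he := at_chartAt (n := n) x
  set e := chartAt (Cm n) x
  let H : Cm n → t → ℂ := fun z g => g.1 (e.symm z)
  have hH : AnalyticAt ℂ H (e x) := AnalyticAt.pi fun g => ht.1 g e he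
  have hs' : Function.Surjective (fderiv ℂ H (e x)) := by
    rw [fderiv_pi fun a => (ht.1 a e he).differentiableAt]
    exact (ind_iff_surj _).1 (ht.2 e he)
  have h3 := hH.hasStrictFDerivAt.map_nhds_eq_of_surj (LinearMap.range_eq_top.2 hs')
  let J : (s → ℂ) → t → ℂ := fun u g => if h : g.1 ∈ s then u ⟨g.1, h⟩ else g.1 x
  have hJ : Continuous J := continuous_pi fun g => by
    by_cases h : g.1 ∈ s
    · simp only [J, dif_pos h]
      exact continuous_apply _
    · simp only [J, dif_neg h]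
      exact continuous_const
  have h4 : J (fun g => g.1 x) = H (e x) := by
    funext g
    simp only [J, H, e.left_inv he.2, dite_eq_ite, ite_self]
  have h5 := (eventually_all.2 fun g => hp.eventually (hol_eventually (h1 g))).and
    ((eventually_all.2 h2).and hS)
  have h6 := image_mem_map (m := H) ((tendsto_symm he).eventually h5)
  rw [h3, ← h4] at h6
  refine not_cv_nhds (x := fun g : s => g.1 x) (by simpa using hm) ?_ (cv_val φ hd)
  filter_upwards [hJ.continuousAt.preimage_mem_nhds h6] with u ⟨z, hz, hu⟩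
  refine ⟨p (e.symm z), ⟨mem_image_of_mem p (hz.2.2 fun g hg hg' => ?_), hz.1⟩, funext fun g => ?_⟩
  · exact (congrFun hu ⟨g, hg⟩).trans (dif_neg hg')
  · exact (hz.2.1 g).symm.trans ((congrFun hu ⟨g, hst g.2⟩).trans (dif_pos g.2))

theorem indS_of {α : Type} {h : α → W → ℂ} (hi : Ind n h x) {t : Finset (W → ℂ)}
    (ht : ∀ g ∈ t, ∃ a, h a = g) : IndS n t x := by
  choose f hf using fun g : t => ht g g.2
  have h1 := hi.comp f fun a b e => Subtype.ext (by rw [← hf a, ← hf b, e])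
  rwa [show (fun b => h (f b)) = fun g : t => (g : W → ℂ) from funext hf] at h1

theorem ind_inj {α : Type} {h : α → W → ℂ} (hi : Ind n h x) : Function.Injective h :=
  fun _ _ e => (hi.2 _ (at_chartAt x)).injective (congrArg (fun g => dd g _ x) e)

theorem fderiv_comp {k : ℕ} {γ : Cm k → W} {z : Cm k} (hγ : AnM n γ z) {a : W → ℂ}
    (ha : Hol n a (γ z)) {e : Chart n W} (he : At e (γ z)) : fderiv ℂ (fun w => a (γ w)) z =
      (dd a e (γ z)).comp (fderiv ℂ (fun w => e (γ w)) z) := by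
  have h0 : (fun w => a (γ w)) =ᶠ[𝓝 z] fun w => a (e.symm (e (γ w))) := by
    filter_upwards [hγ.1.eventually (e.open_source.mem_nhds he.2)] with w hw
    rw [e.left_inv hw]
  rw [h0.fderiv_eq]
  exact fderiv_fun_comp z (ha e he).differentiableAt (hγ.2 e he).differentiableAt

variable [IsManifold 𝓘(ℂ, Cm n) ω W]

/-- functions which are independent on a parametrised piece of `G` -/
theorem rkG_of {G : Set W} {ζ : W → ℂ} {m k : ℕ} {g : Fin m → W → ℂ} {γ : Cm k → W} {z : Cm k}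
    (hζ : LEq n G (γ z) ζ) (hg : ∀ i, g i ∈ Fn X p (γ z)) (hh : ∀ i, Hol n (g i) (γ z))
    (hγ : AnM n γ z) (hG : ∀ᶠ w in 𝓝 z, γ w ∈ G)
    (hs : LinearIndependent ℂ fun i => fderiv ℂ (fun w => g i (γ w)) z) :
    RkGAt n X p G m (γ z) := by
  have he := at_chartAt (n := n) (γ z)
  set e := chartAt (Cm n) (γ z)
  have h0 : fderiv ℂ (fun w => ζ (γ w)) z = 0 := by
    have h1 : (fun w => ζ (γ w)) =ᶠ[𝓝 z] fun _ => 0 := by
      filter_upwards [hγ.1.eventually hζ.1, hG] with w h1 h2 using h1.2 h2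
    rw [h1.fderiv_eq, fderiv_fun_const]
    rfl
  have hi : Ind n (fun o : Option (Fin m) => o.elim ζ g) (γ z) := by
    refine Ind.of_chart (fun o => by cases o; exacts [hζ.hol, hh _]) he
      (Fintype.linearIndependent_iff.2 fun c hc => ?_)
    rw [Fintype.sum_option] at hc
    simp only [Option.elim] at hc
    have h1 : ∀ i, c (some i) = 0 := Fintype.linearIndependent_iff.1 hs _ (by
      ext1 v
      have h2 := DFunLike.congr_fun hc (fderiv ℂ (fun w => e (γ w)) z v)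
      have h3 : dd ζ e (γ z) (fderiv ℂ (fun w => e (γ w)) z v) = 0 :=
        DFunLike.congr_fun ((fderiv_comp hγ hζ.hol he).symm.trans h0) v
      simp only [fderiv_comp hγ (hh _) he]
      simpa [h3] using h2)
    rintro (_ | i)
    · by_contra h2
      refine (hζ.2 e he).2 (hζ.mem.2 hG.self_of_nhds) (ContinuousLinearMap.ext fun v => ?_)
      simpa [h1, h2, dd] using DFunLike.congr_fun hc v
    · exact h1 i
  have hj := ind_inj hi
  refine ⟨Finset.univ.image g, ?_, ?_, hG.self_of_nhds, ζ, hζ, fun h => ?_, indS_of hi fun a ha => ?_⟩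
  · intro a ha
    obtain ⟨i, -, rfl⟩ := Finset.mem_image.1 ha
    exact hg i
  · rw [Finset.card_image_of_injective (f := g) _ fun a b h => Option.some.inj (hj (a₁ := some a)
      (a₂ := some b) h), Finset.card_fin]
  · obtain ⟨i, -, h1⟩ := Finset.mem_image.1 h
    exact Option.some_ne_none i (hj (a₁ := some i) (a₂ := none) h1)
  · rcases Finset.mem_insert.1 ha with rfl | ha
    · exact ⟨none, rfl⟩
    · obtain ⟨i, -, rfl⟩ := Finset.mem_image.1 ha
      exact ⟨some i, rfl⟩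

/-- small rank, small image (dimension at most two) -/
theorem cv_ball {k m N : ℕ} (hk : k ≤ 2) {F : Cm k → Cm N} {c : Cm k} {r : ℝ} (hr : 0 < r)
    (hF : ∀ z ∈ ball c r, AnalyticAt ℂ F z) (h : ∀ z ∈ ball c r, ∀ L : Cm N →L[ℂ] Cm (m + 1),
      ¬ Function.Surjective (L.comp (fderiv ℂ F z))) : ∃ j ≤ m, Cv j (F '' ball c r) := by
  by_cases h1 : k ≤ m
  · exact ⟨k, h1, fun _ => ball c r, fun _ => F, fun _ => isOpen_ball, fun _ => hF,
      subset_iUnion (fun _ : ℕ => F '' ball c r) 0⟩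
  by_cases h2 : k = m + 1
  · subst h2
    refine ⟨m, le_rfl, (Pj.Bdd.cv_conn isOpen_ball (convex_ball c r).isPreconnected
      ⟨c, mem_ball_self hr⟩ hF).mono (image_mono fun z hz => ⟨hz, fun hi => ?_⟩)⟩
    obtain ⟨L, hL⟩ := Val.Big.left_inv hi
    exact h z hz L fun v => ⟨v, hL v⟩
  obtain rfl : m = 0 := by omega
  refine ⟨0, le_rfl, fun _ => univ, fun _ _ => F c, fun _ => isOpen_univ,
    fun _ _ _ => analyticAt_const, ?_⟩
  rintro _ ⟨z, hz, rfl⟩
  refine mem_iUnion.2 ⟨0, 0, trivial, isOpen_ball.is_const_of_fderiv_eq_zero (𝕜 := ℂ)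
    (convex_ball _ _).isPreconnected (fun w hw => (hF w hw).differentiableAt.differentiableWithinAt)
    (fun w hw => ContinuousLinearMap.ext fun v => funext fun a => ?_) (mem_ball_self hr) hz⟩
  by_contra h3
  refine h w hw (ContinuousLinearMap.pi fun _ => ContinuousLinearMap.proj a) fun u =>
    ⟨(u 0 / fderiv ℂ F w v a) • v, funext fun i => ?_⟩
  have h4 : fderiv ℂ F w v a ≠ 0 := h3
  rw [Fin.fin_one_eq_zero i]
  simp [h4]

theorem inc_mem {k : ℕ} {r : ℝ} (hr : 0 < r) {z : Cm k} (hz : z ∈ ball (0 : Cm k) r) :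
    inc k z ∈ ball (0 : Cm (k + 1)) r := by
  refine (dist_pi_lt_iff hr).2 fun i => Fin.cases ?_ (fun j => (dist_pi_lt_iff hr).1 hz j) i
  simpa [Val.inc_zero] using hr

end DimH

open DimH

theorem b1 : StB1 := fun _ _ _ _ _ hp =>
  ⟨fun hd ⟨_, _, h1, h2, h3⟩ => key hp.1.continuousAt (Finset.Subset.refl _) h1 h3 (S := univ)
    (Eventually.of_forall fun _ _ => trivial) (by omega) (image_univ.symm ▸ hd),
  fun _ hd ⟨_, s, h1, h2, hx, ζ, h3, h4, h5⟩ => key hp.1.continuousAt (Finset.subset_insert ζ s)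
    h1 h5 (h3.1.mono fun _ hy h => hy.1 ((h ζ (Finset.mem_insert_self _ _) h4).trans
      (h3.mem.2 hx))) (by omega) hd⟩

theorem b2 : StB2 := by
  intro d W X p m l hd hp hr
  obtain ⟨y₀, hy₀⟩ := (W.connG l).1
  have : Nonempty X.pt := ⟨p y₀⟩
  obtain ⟨k, rfl⟩ : ∃ k, d = k + 1 := by
    obtain ⟨_, i, -⟩ := W.snc.hyp l y₀ hy₀
    exact ⟨d - 1, by have := i.pos; omega⟩
  have key : ∀ y ∈ W.G l, ∃ U ∈ 𝓝 y, DimLe X m (p '' (U ∩ W.G l)) := fun y hy => by
    obtain ⟨N, k', V, Ω, h, ψ, hw, hM⟩ := X.model (p y)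
    obtain ⟨Φ, ρ, lab, h1, h2, h3⟩ := W.snc.nch1 hy 0
      (hp.1.continuousAt.eventually_mem (hM.isOpen.mem_nhds hw))
    have h4 := fun z hz => h1.symm_mem (inc_mem h1.pos (z := z) hz)
    have h5 : ∀ z ∈ ball (0 : Cm k) ρ, AnM (k + 1) (fun z => Φ.symm (inc k z)) z := fun z hz =>
      AnM.comp (γ := Φ.symm) ((h4 z hz).2 ▸ (h1.crd _ (h4 z hz).1).an) ((inc k).analyticAt z)
    have h6 : ∀ z ∈ ball (0 : Cm k) ρ, AnalyticAt ℂ (fun z => ψ (p (Φ.symm (inc k z)))) z :=
      fun z hz => AnalyticAt.pi fun a => (h5 z hz).hol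
        (hp.2 _ _ (hM.isCoord.hol a _ (h3 _ (h4 z hz).1)))
    obtain ⟨j, hj, hc⟩ := cv_ball (m := m) (by omega) h1.pos h6 fun z hz L hL => hr (by
      have h7 : ∀ i, X.Hol (fun x => L (ψ x) i) (p (Φ.symm (inc k z))) := fun i =>
        (hM.hol _ (h3 _ (h4 z hz).1) _).2 ⟨fun z => L z i, analyticAt_pi_iff.1 (L.analyticAt _) i,
          EventuallyEq.rfl⟩
      have h8 := h1.crd _ (h4 z hz).1
      have h9 := L.hasFDerivAt.comp z (h6 z hz).differentiableAt.hasFDerivAt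
      refine ⟨_, rkG_of (ζ := fun x => Φ x 0) (g := fun i x => L (ψ (p x)) i)
        (γ := fun z => Φ.symm (inc k z)) ⟨?_, fun e he => ?_⟩ (fun i => ⟨_, h7 i, EventuallyEq.rfl⟩) (fun i => hp.2 _ _ (h7 i)) (h5 z hz) ?_ ?_⟩
      · filter_upwards [Φ.open_source.mem_nhds (h4 z hz).1] with x hx using (h1.iff1 h2 hx).symm
      · have k1 := (Val.crd_chart he).chg h8
        refine ⟨h8.hol 0 e he, fun _ h0 => ?_⟩
        obtain ⟨v, hv⟩ := (LinearMap.equivOfDetNeZero _ k1.2).surjective (Pi.single 0 1)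
        have k2 := (hasFDerivAt_pi'.1 k1.1.differentiableAt.hasFDerivAt 0).fderiv
        have k3 := DFunLike.congr_fun (k2.symm.trans h0) v
        exact one_ne_zero ((congrFun hv 0).symm.trans k3)
      · filter_upwards [isOpen_ball.mem_nhds hz] with w hw
        rw [h1.iff1 h2 (h4 w hw).1, (h4 w hw).2]
        rfl
      · refine (ind_iff_surj _).2 fun u => (hL u).imp fun v hv => funext fun i => ?_
        exact (DFunLike.congr_fun (hasFDerivAt_pi'.1 h9 i).fderiv v).trans (congrFun hv i))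
    refine ⟨_, h1.nhds, ((Pj.Nrm.dimLe_of_cv hM hc).le hj).mono ?_⟩
    rintro _ ⟨x, hx, rfl⟩
    have h7 := Val.inc_tl ((h1.iff1 h2 hx.1).1 hx.2)
    refine ⟨h3 x hx.1, tl k (Φ x), ?_, by simp only [h7, Φ.left_inv hx.1]⟩
    exact (dist_pi_lt_iff h1.pos).2 fun i => (dist_pi_lt_iff h1.pos).1
      (h1.tgt ▸ Φ.map_source hx.1 : Φ x ∈ ball 0 ρ) i.succ
  choose! U hU hd' using key
  obtain ⟨t, h1, h2⟩ := (W.snc.closed' l).isCompact.elim_nhds_subcover U hU
  refine (dimLe_biUnion t.countable_toSet fun y hy => hd' y (h1 y hy)).mono ?_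
  rintro _ ⟨x, hx, rfl⟩
  obtain ⟨y, hy, h3⟩ := mem_iUnion₂.1 (h2 hx)
  exact mem_iUnion₂.2 ⟨y, hy, x, ⟨h3, hx⟩, rfl⟩

end Vale.Agent.P277Z.Rk
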