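import Vale.Agent.P277Z.Rk.Api
import Vale.Agent.P277Z.Glc.Api
import Vale.Agent.P277.A.Dim

/-!
# P277, block GLC: the case of surfaces
-/

set_option linter.unusedSectionVars false
set_option linter.unusedVariables false

open scoped Manifold ContDiff Topology Classical
open Vale.Agent.P277 hiding Amin IsFlipR
open Vale.Agent.P277.HD Vale.Agent.P277.PH
open Vale.Agent.P272.K Vale.Agent.P285.H281.FD Set Filter
open Vale.Agent.P277Z.Slc (LEq)
open Vale.Agent.P277Z.Glc (HolX Mf Dat Pm Cmp Mon)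

noncomputable section

namespace Vale.Agent.P277Z.Rk

namespace End2

variable {d : ℕ} {W : Mf d}

theorem log_mon {n : Fin W.r → ℤ} {f : W.T → ℂ} {y : W.T} (h : Mon d W.G n f y)
    {ζ : Fin W.r → W.T → ℂ} (hζ : ∀ l, LEq d (W.G l) y (ζ l)) : ∃ F, Hol d F y ∧ ∀ᶠ x in 𝓝 y,
      x ∉ ⋃ l, W.G l → Real.log ‖f x‖ = (F x).re + ∑ l, n l * Real.log ‖ζ l x‖ := by
  obtain ⟨u, h1, h2, h3⟩ := h.any hζ
  refine ⟨fun x => Complex.log (u x / u y) + (Real.log ‖u y‖ : ℂ), fun e he =>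
    ((h1 e he).div_const.clog (by
      rw [e.left_inv he.2, div_self h2]
      exact Complex.one_mem_slitPlane)).add analyticAt_const, ?_⟩
  filter_upwards [h3, Glc.holF_ne h1 h2, Glc.leq_ne hζ] with x a b c e
  have k : ∀ l ∈ Finset.univ, ‖ζ l x‖ ^ n l ≠ 0 := fun l _ =>
    zpow_ne_zero _ (norm_ne_zero_iff.2 (c e l))
  rw [a e, norm_mul, norm_prod]
  simp only [norm_zpow]
  rw [Real.log_mul (norm_ne_zero_iff.2 b) (Finset.prod_ne_zero_iff.2 k), Real.log_prod k,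
    Complex.add_re, Complex.ofReal_re, Complex.log_re, norm_div,
    Real.log_div (norm_ne_zero_iff.2 b) (norm_ne_zero_iff.2 h2), sub_add_cancel]
  simp only [Real.log_zpow]

theorem log_cmp {X : CSp} {p : W.T → X.pt} (hp : Continuous p) {L : Bd X.pt} (hL : IsLBx X L)
    {B : Bd W.T} (hB : IsLB d B) {P Q : ℕ} (hQ : Q ≠ 0) {n : Fin W.r → ℤ}
    {t : L.ι → B.ι → W.T → ℂ} (h : Cmp d p (L.pow P) (B.pow Q) W.G n t) {k : W.T → B.ι}
    (hk : ∀ x, x ∈ B.U (k x)) {i : L.ι} {y : W.T} (hi : p y ∈ L.U i) {ζ : Fin W.r → W.T → ℂ}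
    (hζ : ∀ l, LEq d (W.G l) y (ζ l)) : ∃ F, Hol d F y ∧ ∀ᶠ x in 𝓝 y, x ∉ ⋃ l, W.G l →
      Real.log ‖t i (k x) x‖ / Q = (F x).re / Q + ∑ l, n l / Q * Real.log ‖ζ l x‖ +
        Real.log ‖B.g (k x) (k y) x‖ := by
  obtain ⟨F, h1, h2⟩ := log_mon (h.div y i (k y) hi (hk y)) hζ
  refine ⟨F, h1, ?_⟩
  filter_upwards [h2, hp.continuousAt.eventually ((hL.isOpen i).mem_nhds hi),
    (hB.isOpen (k y)).mem_nhds (hk y)] with x a b c e
  have h3 : L.g i i (p x) = 1 := mul_left_cancel₀ (hL.ne_zero i i _ b b)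
    ((hL.cocycle i i i _ b b b).trans (mul_one _).symm)
  have h4 : t i (k x) x = L.g i i (p x) ^ P * t i (k y) x * B.g (k x) (k y) x ^ Q :=
    h.change x i i (k y) (k x) e b b c (hk x)
  rw [h4, h3, one_pow, one_mul, norm_mul, norm_pow, Real.log_mul (norm_ne_zero_iff.2
    (h.ne e b c)) (pow_ne_zero _ (norm_ne_zero_iff.2 (hB.ne_zero _ _ x (hk x) c))), Real.log_pow,
    a e, add_div, add_div, mul_div_cancel_left₀ _ (Nat.cast_ne_zero.2 hQ), Finset.sum_div]
  simp only [mul_div_right_comm]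

theorem lb_NB {D : Dat} {N : ℕ} (W : Pm D N d) (e : Fin D.k) : IsLB d (W.NB e) :=
  have h := Slc.isLB_can (n := d) (W := W.T)
  have h' := W.lb e
  { isOpen := fun i => (h.isOpen i.1).inter (h'.isOpen i.2)
    cover := fun x => let ⟨i, a⟩ := h.cover x; let ⟨j, b⟩ := h'.cover x; ⟨(i, j), a, b⟩
    holo := fun i j c x hc a b =>
      ((h.holo _ _ c x hc a.1 b.1).pow _).mul (h'.holo _ _ c x hc a.2 b.2)
    ne_zero := fun i j x a b =>
      mul_ne_zero (pow_ne_zero _ (h.ne_zero _ _ x a.1 b.1)) (h'.ne_zero _ _ x a.2 b.2)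
    cocycle := fun i j k x a b c => (mul_mul_mul_comm _ _ _ _).trans (congrArg₂ _
      ((mul_pow _ _ _).symm.trans (congrArg (· ^ D.m e) (h.cocycle _ _ _ x a.1 b.1 c.1)))
      (h'.cocycle _ _ _ x a.2 b.2 c.2)) }

end End2

open End2

/-- a component whose discrepancy changes lies over the flipping locus -/
theorem over_of_ne {D : Dat} {N d j : ℕ} (W : Pm D N d) (hj : j < N) {l : Fin W.r}
    (h : W.a j l ≠ W.a (j + 1) l) : ∀ y ∈ W.G l, D.Fl j (W.p j y) := fun y hy => by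
  by_contra k
  exact h (Finset.sum_congr rfl fun e _ => by rw [W.const j hj l ⟨y, hy, k⟩ e])

theorem end2_of (hG : StGreenX) (hB : StB1) : StEnd2 := by
  intro D j d W hr h1 h2 y hy
  obtain ⟨l, hl, hlt⟩ := W.strict j j.lt_succ_self y hy
  have hp := W.hol j j.le_succ
  have hp' := W.hol (j + 1) le_rfl
  have hL := (D.S.flip j).lb
  have hL' := (D.S.flip j).lb'
  have hN := lb_NB W
  choose t ht using W.cmp j j.le_succ
  choose t' ht' using W.cmp (j + 1) le_rfl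
  choose k hk using fun e => (hN e).cover
  choose i hi using fun e => (hL e).cover (W.p j y)
  choose i' hi' using fun e => (hL' e).cover (W.p (j + 1) y)
  have hQ : ∀ j e, W.P j e * D.S.c j e ≠ 0 := fun j e =>
    (Nat.mul_pos (W.hP j e) (D.S.hc j e)).ne'
  refine (sub_pos.2 hlt).ne' (hG d W.toMf _ _ _ _ (⋂ e, (D.S.L j e).U (i e))
    (⋂ e, (D.S.L (j + 1) e).U (i' e)) (fun l => W.a (j + 1) l - W.a j l)
    (fun x => ∑ e, D.ρ e * (Real.log ‖t' e (i' e) (k e x) x‖ / (W.P (j + 1) e * D.S.c (j + 1) e : ℕ) -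
      Real.log ‖t e (i e) (k e x) x‖ / (W.P j e * D.S.c j e : ℕ))) 0 y l hp hp'
    (isOpen_iInter_of_finite fun e => (hL e).isOpen _)
    (isOpen_iInter_of_finite fun e => (hL' e).isOpen _) (fun z hz => ?_) hr
    (fun l' a z s b c => not_lt.1 fun h => ?_) (mem_iInter.2 hi) (mem_iInter.2 hi') hl)
  · obtain ⟨ζ, hζ⟩ := W.toMf.exEq z
    choose F f1 f2 using fun e => log_cmp hp.1 (hL e) (hN e) (hQ j e) (ht e) (hk e)
      (mem_iInter.1 hz.1 e) hζ
    choose F' g1 g2 using fun e => log_cmp hp'.1 (hL' e) (hN e) (hQ _ e) (ht' e) (hk e)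
      (mem_iInter.1 hz.2 e) hζ
    refine ⟨ζ, fun x => ∑ e, D.ρ e * (F' e x / (W.P (j + 1) e * D.S.c (j + 1) e : ℕ) -
      F e x / (W.P j e * D.S.c j e : ℕ)), hζ, fun c hc => Finset.analyticAt_fun_sum _ fun e _ =>
        analyticAt_const.mul ((g1 e c hc).div_const.sub (f1 e c hc).div_const), ?_⟩
    filter_upwards [eventually_all.2 f2, eventually_all.2 g2] with x a b c
    simp only [a _ c, b _ c, Complex.re_sum, Complex.re_ofReal_mul, Complex.sub_re,
      Complex.div_natCast_re, Glc.Pm₀.a, Glc.Pm₀.α, sub_mul, Finset.sum_sub_distrib, Finset.sum_mul]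
    rw [Finset.sum_comm, Finset.sum_comm (f := fun l e => D.ρ e * _ * Real.log ‖ζ l x‖),
      ← Finset.sum_sub_distrib, ← Finset.sum_add_distrib]
    refine Finset.sum_congr rfl fun e _ => ?_
    simp only [mul_assoc, ← Finset.mul_sum, Nat.cast_mul]
    ring
  · obtain ⟨g, hg⟩ := Finset.card_pos.1 h
    have ov := over_of_ne W j.lt_succ_self (sub_ne_zero.1 a).symm
    have c' := c.mono (Finset.singleton_subset_iff.2 hg)
    rcases b hg with b | b
    · exact (hB d W.toMf _ _ 0 hp).2 l' (h1.mono (image_mono ov)) ⟨z, {g}, by simpa using b, rfl, c'⟩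
    · exact (hB d W.toMf _ _ 0 hp').2 l' (h2.mono (image_mono ov)) ⟨z, {g}, by simpa using b, rfl, c'⟩

end Vale.Agent.P277Z.Rk
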