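import Vale.Agent.P277Z.Rk.Six

/-!
# P277, block GLC: the end of section 5, and the rank in a tower
-/

set_option linter.unusedSectionVars false

open scoped Manifold ContDiff Topology Classical
open Vale.Agent.P277 hiding Amin IsFlipR
open Vale.Agent.P277.PH
open Vale.Agent.P272.K Vale.Agent.P285.H281.FD Set Filter
open Vale.Agent.P277Z.Slc (LEq Ind dd ind_iff_surj)
open Vale.Agent.P277Z.Glc (HolX HolM Mf Dat Pm Tw Tws Md)

noncomputable section

namespace Vale.Agent.P277Z.Rk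

namespace EndB

open SixH

variable {d : ℕ} {W' W : Mf d} {π : W'.T → W.T} {X : CSp} {p : W.T → X.pt} {m : ℕ} {y : W'.T}

theorem dd_comp (h : HolM d d π) {a : W.T → ℂ} (ha : Hol d a (π y)) {b : W'.T → ℂ}
    (hb : b =ᶠ[𝓝 y] a ∘ π) {e' : Chart d W'.T} {e : Chart d W.T} (he' : At e' y)
    (he : At e (π y)) : dd b e' y =
      (dd a e (π y)).comp (fderiv ℂ (fun z => e (π (e'.symm z))) (e' y)) := by
  have h0 : (fun z => b (e'.symm z)) =ᶠ[𝓝 (e' y)]
      (fun w => a (e.symm w)) ∘ fun z => e (π (e'.symm z)) := by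
    filter_upwards [(Slc.tendsto_symm he').eventually hb, ((h.1.tendsto y).comp
      (Slc.tendsto_symm he')).eventually (e.open_source.mem_nhds he.2)] with z u v
    exact u.trans (congrArg a (e.left_inv v).symm)
  have h1 : DifferentiableAt ℂ (fun w => a (e.symm w)) (e (π (e'.symm (e' y)))) := by
    rw [e'.left_inv he'.2]
    exact (ha e he).differentiableAt
  rw [dd, h0.fderiv_eq, fderiv_comp (f := fun z => e (π (e'.symm z))) (e' y) h1
    (an_loc h he' he).differentiableAt, e'.left_inv he'.2]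
  rfl

theorem rk_down (h : HolM d d π) (hp : HolX d X p) (hr : RkAt d X (fun y => p (π y)) m y) :
    RkAt d X p m (π y) := by
  obtain ⟨s, h1, h2, h3⟩ := hr
  choose φ f1 f2 using fun g : s => h1 g.2
  have he' := at_chartAt (n := d) y
  have he := at_chartAt (n := d) (π y)
  have h4 : Ind d (fun g : s => φ g ∘ p) (π y) :=
    Ind.of_chart (fun g => hp.2 _ _ (f1 g)) he (LinearIndependent.of_comp
      ((ContinuousLinearMap.compL ℂ (Cm d) (Cm d) ℂ).flip (fderiv ℂ (fun z =>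
        chartAt (Cm d) (π y) (π ((chartAt (Cm d) y).symm z))) (chartAt (Cm d) y y))).toLinearMap
      ((congrArg (fun v => LinearIndependent ℂ v) (funext fun g =>
        dd_comp h (hp.2 _ _ (f1 g)) (f2 g) he' he)).mp (h3.2 _ he')))
  refine ⟨Finset.univ.image _, fun a ha => ?_, (Finset.card_image_of_injective _
    (DimH.ind_inj h4)).trans ((Finset.card_attach).trans h2), DimH.indS_of h4 fun a ha => ?_⟩
  · obtain ⟨g, -, rfl⟩ := Finset.mem_image.1 ha
    exact ⟨φ g, f1 g, EventuallyEq.rfl⟩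
  · exact (Finset.mem_image.1 ha).imp fun _ a => a.2

theorem rk_up (h : HolM d d π) (he : Et π y) (hr : RkAt d X p m (π y)) :
    RkAt d X (fun y => p (π y)) m y := by
  obtain ⟨s, h1, h2, h3⟩ := hr
  have c' := at_chartAt (n := d) y
  have c := at_chartAt (n := d) (π y)
  have h4 : Ind d (fun g : s => (g : W.T → ℂ) ∘ π) y := by
    refine Ind.of_chart (fun g => h.2 _ _ (h3.1 g)) c' ((ind_iff_surj _).2 fun v => ?_)
    obtain ⟨w, hw⟩ := (ind_iff_surj _).1 (h3.2 _ c) v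
    obtain ⟨u, rfl⟩ := (LinearMap.injective_iff_surjective.1
      (Val.LocIso.inj ⟨an_loc h c' c, he _ _ c' c⟩)) w
    exact ⟨u, funext fun g => (DFunLike.congr_fun
      (dd_comp h (h3.1 g) EventuallyEq.rfl c' c) u).trans (congrFun hw g)⟩
  refine ⟨Finset.univ.image _, fun a ha => ?_, (Finset.card_image_of_injective _
    (DimH.ind_inj h4)).trans ((Finset.card_attach).trans h2), DimH.indS_of h4 fun a ha => ?_⟩
  · obtain ⟨g, -, rfl⟩ := Finset.mem_image.1 ha
    obtain ⟨φ, f1, f2⟩ := h1 g.2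
    exact ⟨φ, f1, h.1.continuousAt.eventually f2⟩
  · exact (Finset.mem_image.1 ha).imp fun _ a => a.2

theorem rkT_pull (h : Bm W' W π) (hp : HolX d X p) :
    RkT d X (fun y => p (π y)) m ↔ RkT d X p m := by
  refine ⟨fun ⟨y, hy⟩ => ⟨π y, rk_down h.hol hp hy⟩, fun ⟨x, hx⟩ => ?_⟩
  obtain ⟨x, rfl⟩ := h.surj x
  obtain ⟨y, a, b⟩ := ((W'.freqU x).and_eventually
    (h.hol.1.continuousAt.eventually (hx.near hp.1))).exists
  exact ⟨y, rk_up h.hol (h.det y a) b⟩

theorem fn_sup {D : Dat} {N : ℕ} (W : Pm D N d) {j : ℕ} {y : W.T} (hj : j < N)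
    (h : ¬ D.Fl j (W.p j y)) : Fn _ (W.p j) y ⊆ Fn _ (W.p (j + 1)) y := by
  rintro g ⟨φ, h1, h2⟩
  have hF := Glc.flipR_amin (D.S.flip j) (D.S.hc j)
  obtain ⟨ψ, h3, h4⟩ := hF.small.iso _ φ h h1
  refine ⟨_, hF.small'.holo _ ψ ((W.comm j hj y).symm ▸ h3), ?_⟩
  filter_upwards [h2, (W.hol j hj.le).1.continuousAt.eventually h4] with x a b
  exact a.trans (b.trans (congrArg ψ (W.comm j hj x).symm))

theorem rkTw : StRkTw := by
  refine ⟨fun D N' N d W' W h j m hj => ?_, fun D N d W j m hj => ?_⟩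
  · rw [← rkT_pull (bm_md h.toMd) (W.hol j hj), funext (h.hp j hj)]
  · induction j with
    | zero => rfl
    | succ j ih =>
      have f := fun y (hy : y ∉ ⋃ l, W.G l) (a : D.Fl j (W.p j y)) =>
        (exists_ov W hj a).elim fun l b => hy (mem_iUnion.2 ⟨l, b.1⟩)
      refine Iff.trans ⟨fun a => ?_, fun a => ?_⟩ (ih (by omega))
      · obtain ⟨y, u, v⟩ := a.off W.snc (W.hol _ hj).1
        exact ⟨y, u.of_sub (fn_sub W hj (f y v))⟩
      · obtain ⟨y, u, v⟩ := a.off W.snc (W.hol j (by omega)).1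
        exact ⟨y, u.of_sub (fn_sup W hj (f y v))⟩

theorem cj_of (hF : StFibX) (h2 : StB2) : StCj := by
  intro D j d W Y q g hd hq hg e r1 r2
  have hp := W.hol (j + 1) le_rfl
  have key : ∀ v l, Ov W j l → ¬ RkT (d + 1) _ (W.p (j + 1)) (v + 2) →
      ¬ RkG (d + 1) _ (W.p (j + 1)) (W.G l) v := fun v l hl hv ⟨x₀, hx⟩ => by
    obtain ⟨k, a, y, -, b⟩ := hF d W.toMf _ Y (W.p (j + 1)) q univ {l | Ov W j l} v x₀ l hp hq
      isOpen_univ (fun x a ⟨φ, u, w⟩ => ⟨φ ∘ g, (hg _).2 φ (by rwa [e]),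
        w.mono fun z c => c.trans (congrArg φ (e z).symm)⟩)
      (fun x y _ _ c ⟨k, u, w⟩ => (exists_ov W j.lt_succ_self (by
        have := u x w
        rwa [Dat.Fl, ← W.comm j j.lt_succ_self, ← c, W.comm j j.lt_succ_self] at this)).imp
          fun _ z => ⟨z.2, z.1⟩) r1 hv trivial hl hx
    exact r2 k a ⟨y, b⟩
  refine ⟨fun hv => eq_empty_of_forall_notMem ?_, fun m hv => ?_⟩
  · rintro _ ⟨y, hy, -⟩
    obtain ⟨l, a, b⟩ := exists_ov W j.lt_succ_self hy
    exact key 0 l b hv ⟨y, ∅, by simp, rfl, indG_empty' W.snc a⟩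
  · have : Nonempty (D.S.X (j + 1)).pt := Nonempty.map (W.p (j + 1)) inferInstance
    refine (dimLe_iUnion fun l : {l // Ov W j l} => h2 _ W.toMf _ _ m l (by omega) hp
      (key (m + 1) l l.2 hv)).mono ?_
    rintro _ ⟨y, hy, rfl⟩
    obtain ⟨l, a, b⟩ := exists_ov W j.lt_succ_self hy
    exact mem_iUnion.2 ⟨⟨l, b⟩, y, a, rfl⟩

end EndB

end Vale.Agent.P277Z.Rk
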