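import Vale.Agent.P277Z.Rk.Api

/-!
# P277, block GLC: the dimension of the fibres, Green functions of contracted divisors
-/

open scoped Manifold ContDiff Topology Classical
open Vale.Agent.P277 hiding Amin IsFlipR
open Vale.Agent.P277.HD Vale.Agent.P277.PH
open Vale.Agent.P272.K Vale.Agent.P285.H281.FD Set Filter
open Vale.Agent.P277Z.Slc (LEq Ind dd ForW)
open Vale.Agent.P277Z.Val (IsSnc)

set_option linter.unusedSectionVars false

noncomputable section

namespace Vale.Agent.P277Z.Rk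

namespace Fb

theorem exists_max {α : Type} (P : Finset α → Prop) (T : Finset α) (h : ∃ s ⊆ T, P s) :
    ∃ s ⊆ T, P s ∧ ∀ g ∈ T, g ∉ s → ¬ P (insert g s) := by
  obtain ⟨s₀, h1, h2⟩ := h
  obtain ⟨s, hs, hm⟩ := (T.powerset.filter P).exists_max_image Finset.card ⟨s₀, by simp [h1, h2]⟩
  simp only [Finset.mem_filter, Finset.mem_powerset] at hs hm
  refine ⟨s, hs.1, hs.2, fun g hg hgs k => ?_⟩
  have := hm _ ⟨Finset.insert_subset hg hs.1, k⟩
  rw [Finset.card_insert_of_notMem hgs] at this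
  omega

theorem ev_not_fib {W : Type} [TopologicalSpace W] {H : Finset (W → ℂ)} {K : Set W} {x : W}
    (hK : IsCompact K) (h1 : ∀ g ∈ H, ContinuousAt g x) (h2 : ∀ g ∈ H, ∀ y ∈ K, ContinuousAt g y)
    (h3 : ∀ y ∈ K, ¬ Fib H x y) : ∀ᶠ x' in 𝓝 x, ∀ y ∈ K, ¬ Fib H x' y := by
  refine hK.eventually_forall_of_forall_eventually fun y hy => ?_
  obtain ⟨g, hg, k⟩ : ∃ g ∈ H, g y ≠ g x := by simpa [Fib] using h3 y hy
  have a : ContinuousAt (fun z : W × W => g z.2 - g z.1) (x, y) :=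
    (ContinuousAt.comp (g := g) (h2 g hg y hy) continuousAt_snd).sub
      (ContinuousAt.comp (g := g) (h1 g hg) continuousAt_fst)
  exact (a.eventually_ne (sub_ne_zero.2 k)).mono fun z b c => b (sub_eq_zero.2 (c g hg))

variable {n : ℕ} {W : Type} [TopologicalSpace W] [ChartedSpace (Cm n) W]
  [IsManifold 𝓘(ℂ, Cm n) ω W] {κ : Type} [Fintype κ] {G : κ → Set W} {V : Set W} {c : κ → ℝ}
  {u : W → ℝ}

theorem ph_log {ζ : W → ℂ} {y : W} (h : Hol n ζ y) (h0 : ζ y ≠ 0) (c : ℝ) :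
    ∃ L : W → ℂ, Hol n L y ∧ ∀ᶠ y' in 𝓝 y, (L y').re = c * Real.log ‖ζ y'‖ := by
  refine ⟨fun y' => c * (Complex.log (ζ y' / ζ y) + (Real.log ‖ζ y‖ : ℝ)), fun e he => ?_, ?_⟩
  · refine analyticAt_const.mul ((((h e he).div analyticAt_const h0).clog ?_).add analyticAt_const)
    simp [e.left_inv he.2, h0]
  · filter_upwards [h.continuousAt.eventually_ne h0] with y' k
    rw [Complex.re_ofReal_mul, Complex.add_re, Complex.log_re, Complex.ofReal_re, norm_div,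
      Real.log_div (norm_ne_zero_iff.2 k) (norm_ne_zero_iff.2 h0), sub_add_cancel]

/-- the extension across the components with coefficient zero -/
def ext (G : κ → Set W) (u : W → ℝ) (y : W) : ℝ := limUnder (𝓝[(⋃ l, G l)ᶜ] y) u

theorem ext_spec (hG : IsSnc n G) (hu : Green n G V c u) {y : W} (hy : y ∈ V)
    (h : ∀ k, c k ≠ 0 → y ∉ G k) : PHAt n (ext G u) y ∧ (y ∉ ⋃ l, G l → ext G u y = u y) := by
  obtain ⟨ζ, F, h1, h2, h3⟩ := hu y hy
  have h4 : ∀ k, ∃ L : W → ℂ, Hol n L y ∧ ∀ᶠ y' in 𝓝 y, (L y').re = c k * Real.log ‖ζ k y'‖ := by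
    intro k
    by_cases hk : c k = 0
    · exact ⟨fun _ => 0, fun _ _ => analyticAt_const, by simp [hk]⟩
    · exact ph_log (h1 k).hol (fun e => h k hk ((h1 k).mem.1 e)) _
  choose L hL hL' using h4
  have h5 : Hol n (fun y' => F y' + ∑ k, L k y') y := fun e he =>
    (h2 e he).add (Finset.analyticAt_fun_sum _ fun k _ => hL k e he)
  have h6 : ∀ᶠ y' in 𝓝 y, y' ∉ ⋃ l, G l → u y' = (F y' + ∑ k, L k y').re := by
    filter_upwards [h3, eventually_all.2 hL'] with y' a b c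
    rw [a c, Complex.add_re, Complex.re_sum]
    simp only [b]
  have h7 : ∀ᶠ y' in 𝓝 y, ext G u y' = (F y' + ∑ k, L k y').re := by
    filter_upwards [h6.eventually_nhds, h5.near] with y' a b
    have : (𝓝[(⋃ l, G l)ᶜ] y').NeBot :=
      mem_closure_iff_nhdsWithin_neBot.1 (mem_closure_iff_frequently.2 (dense_off hG y'))
    refine Tendsto.limUnder_eq (Tendsto.congr' ?_
      ((Complex.continuous_re.continuousAt.comp b.continuousAt).tendsto.mono_left
        nhdsWithin_le_nhds))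
    exact eventually_nhdsWithin_iff.2 (a.mono fun z k k' => (k k').symm)
  exact ⟨⟨fun y' => F y' + ∑ k, L k y', h5, h7⟩, fun k => by rw [h7.self_of_nhds, h6.self_of_nhds k]⟩

theorem blow (hu : Green n G V c u) {x : W} (hx : x ∈ V) {k : κ} (hk : c k ≠ 0) (h0 : x ∈ G k)
    (h1 : ∀ l ≠ k, x ∉ G l) (C : ℝ) : ∀ᶠ y in 𝓝 x, y ∉ ⋃ l, G l → C < |u y| := by
  obtain ⟨ζ, F, h2, h3, h4⟩ := hu x hx
  set R : W → ℝ := fun y => (F y).re + ∑ l ∈ Finset.univ.erase k, c l * Real.log ‖ζ l y‖ with hR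
  have a1 : ContinuousAt R x := (Complex.continuous_re.continuousAt.comp h3.continuousAt).add
    (tendsto_finsetSum _ fun l hl => continuousAt_const.mul ((h2 l).hol.continuousAt.norm.log
      (norm_ne_zero_iff.2 fun e => h1 l (Finset.ne_of_mem_erase hl) ((h2 l).mem.1 e))))
  have a2 : Tendsto (fun y => ‖ζ k y‖) (𝓝[(⋃ l, G l)ᶜ] x) (𝓝[≠] 0) := by
    refine tendsto_nhdsWithin_iff.2 ⟨?_, eventually_nhdsWithin_iff.2 ((h2 k).1.mono fun y a b => ?_)⟩
    · have := (h2 k).hol.continuousAt.norm.tendsto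
      rw [(h2 k).mem.2 h0, norm_zero] at this
      exact this.mono_left nhdsWithin_le_nhds
    · exact norm_ne_zero_iff.2 fun e => b (mem_iUnion.2 ⟨k, a.1 e⟩)
  have a3 : Tendsto (fun y => |c k| * |Real.log ‖ζ k y‖|) (𝓝[(⋃ l, G l)ᶜ] x) atTop :=
    (tendsto_abs_atBot_atTop.comp (Real.tendsto_log_nhdsNE_zero.comp a2)).const_mul_atTop
      (abs_pos.2 hk)
  filter_upwards [h4, eventually_nhdsWithin_iff.1 (a3.eventually_gt_atTop (C + (|R x| + 1))),
    a1.abs.eventually_lt continuousAt_const (lt_add_one _)] with y b1 b2 b3 b4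
  have e : u y = c k * Real.log ‖ζ k y‖ + R y := by
    rw [b1 b4, hR, ← Finset.add_sum_erase _ _ (Finset.mem_univ k)]
    ring
  have b5 := b2 b4
  rw [← abs_mul] at b5
  have b6 := abs_sub (u y) (R y)
  rw [show u y - R y = c k * Real.log ‖ζ k y‖ by rw [e]; ring] at b6
  linarith

theorem PHAt.cont {w : W → ℝ} {y : W} (h : PHAt n w y) : ContinuousAt w y := by
  obtain ⟨g, h1, h2⟩ := h
  exact (Complex.continuous_re.continuousAt.comp (Hol.continuousAt h1)).congr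
    (EventuallyEq.symm h2)

theorem PHAt.neg {w : W → ℝ} {y : W} (h : PHAt n w y) : PHAt n (fun z => -w z) y := by
  obtain ⟨g, h1, h2⟩ := h
  exact ⟨fun z => -g z, fun e he => (h1 e he).neg, h2.mono fun z k => by simp [k]⟩

end Fb

open Fb

theorem fib_of (hLC : StLC) (hN : StNLC) (hMP : StMP) (hG : StGen) (hS : StSph) : StFib := by
  intro n W _ _ _ _ _ κ _ G A V T P s₀ x₀ r₀ l hsnc hB hPT hsat hden hrk hl hs₀ h0
  by_contra hcon
  set V' := {x | x ∈ V ∧ nr T x₀ x < r₀}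
  obtain ⟨s, hsT, ⟨h1, k, hk, x₁, hx₁, h2⟩, hm⟩ := exists_max
    (fun s => s₀ ⊆ s ∧ ∃ k ∈ A, ∃ y ∈ V', IndG n (G k) s y) T
    ⟨s₀, hs₀.trans hPT, subset_rfl, l, hl, x₀, ⟨hB.mem, by rw [nr_self]; exact hB.pos⟩, h0⟩
  have hc : s.card + 2 ≤ n := by
    have a := h2.card_lt
    have : s.card + 1 ≠ n := fun e => hcon ⟨k, hk, x₁, hx₁.1, s, hsT, e, h2⟩
    omega
  obtain ⟨r₁, a1, a2⟩ := exists_between hx₁.2
  have hB' := hB.shrink ((nr_nonneg _ _ _).trans_lt a1) a2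
  obtain ⟨x, hx, h3, -, r, b1, b2, b3⟩ := hS n W κ G A V' T s x₀ x₁ r₁ k hsnc hB'
    (fun g hg => hB'.hol g (hsT hg)) (fun k' hk' y hy g hg hgs h => hm g hg hgs
      ⟨h1.trans (Finset.subset_insert _ _), k', hk', y, hy, h⟩) hx₁ a1 h2
  have hHT : P ∪ s ⊆ T := Finset.union_subset hPT hsT
  have hK := hB'.cpt' (S := {r}) isClosed_singleton (by simpa using b2)
  have h4 := ev_not_fib (H := P ∪ s) (x := x) hK (fun g hg => (hB'.hol g (hHT hg) x hx).continuousAt)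
    (fun g hg y hy => (hB'.hol g (hHT hg) y hy.1).continuousAt) fun y hy hf => by
      obtain ⟨k', c1, c2⟩ := hsat x hx.1 y hy.1.1 (hf.mono Finset.subset_union_left) ⟨k, hk, h3.mem⟩
      exact b3 y hy.1 (hf.mono Finset.subset_union_right) hy.2 k' c1 c2
  obtain ⟨U, hU, hUo, hxU⟩ := eventually_nhds_iff.1 (h4.and ((hB'.isOpen.eventually_mem hx).and
    ((contAt_nr fun g hg => hB'.hol g hg x hx).eventually_lt continuousAt_const b1)))
  obtain ⟨t, htH, ⟨x', hx', c1⟩, cm⟩ := exists_max (fun t => ∃ y ∈ U, IndS n t y) (P ∪ s)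
    ⟨∅, Finset.empty_subset _, x, hxU, indS_empty x⟩
  have c2 : t.card < n := by
    have d1 := hrk x' (hU x' hx').2.1.1 (t ∩ P) Finset.inter_subset_right
      (c1.mono Finset.inter_subset_left)
    have d2 : (t \ P).card ≤ (s \ s₀).card := Finset.card_le_card fun g hg => by
      rw [Finset.mem_sdiff] at hg ⊢
      exact ⟨(Finset.mem_union.1 (htH hg.1)).resolve_left hg.2, fun k => hg.2 (hs₀ k)⟩
    have d3 := Finset.card_sdiff_add_card_eq_card h1
    have d4 := Finset.card_sdiff_add_card_inter t P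
    omega
  obtain ⟨x'', ⟨t', ht, tc, ti⟩, e1, e2⟩ := ((hden x' (hU x' hx').2.1.1).and_eventually
    (c1.near.and (hUo.eventually_mem hx'))).exists
  obtain ⟨g, hg, g1, g2⟩ := e1.ext ti (by omega)
  have hth : ∀ g ∈ t, ∀ y ∈ V', Hol n g y := fun g hg => hB'.hol g (hHT (htH hg))
  obtain ⟨z, ⟨-, z1⟩, z2, z3⟩ := ((hG n W κ G V' t ∅ x'' hsnc hB'.isOpen hth (by simp)
    (by simpa using e1)).and_eventually (g2.near.and (hUo.eventually_mem e2))).exists
  obtain ⟨y, y1, -, y2, y3, -⟩ := hMP n W V' T t (P ∪ s) x₀ z r₁ r (fun _ => 0) hB' b2 hth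
    (fun g hg => hB'.hol g (hHT hg)) (hU z z3).2.1 (hU z z3).2.2.le
    (fun y hy hf => ⟨(z1 y hy hf).1, fun _ => ⟨fun _ => 0, fun _ _ => analyticAt_const, by simp⟩⟩)
    (((P ∪ s).eventually_all.2 fun h hh => hLC n W t h z (z2.mono (Finset.subset_insert _ _))
      (hB'.hol h (hHT hh) z (hU z z3).2.1) ((hUo.eventually_mem z3).mono fun y hy _ =>
        or_iff_not_imp_left.2 fun k k' => cm h hh k ⟨y, hy, k'⟩)).mono fun y a b h hh => a h hh b)
    fun k => hN n W t g z g1 z2 (k.mono fun y a b => a b g (ht hg))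
  exact (hU z z3).1 y ⟨y1, y3⟩ y2

theorem green_of (hN : StNLC) (hMP : StMP) (hG : StGen) (hS : StSph) : StGreen := by
  intro n W _ _ _ _ _ κ _ G c u V T x₀ r₀ m l hsnc hB hu hden hrk hl
  by_contra hc
  set V' := {x | x ∈ V ∧ nr T x₀ x < r₀}
  obtain ⟨s, hsT, ⟨k, hk, x₁, hx₁, h2⟩, hm⟩ := exists_max
    (fun s => ∃ k, c k ≠ 0 ∧ ∃ y ∈ V', IndG n (G k) s y) T
    ⟨∅, Finset.empty_subset _, l, hc, x₀, ⟨hB.mem, by rw [nr_self]; exact hB.pos⟩,
      indG_empty' hsnc hl⟩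
  have hsm := hrk k hk x₁ hx₁.1 s hsT h2
  obtain ⟨r₁, a1, a2⟩ := exists_between hx₁.2
  have hB' := hB.shrink ((nr_nonneg _ _ _).trans_lt a1) a2
  obtain ⟨x, hx, h3, hgen, r, b1, b2, b3⟩ := hS n W κ G {k | c k ≠ 0} V' T s x₀ x₁ r₁ k hsnc hB'
    (fun g hg => hB'.hol g (hsT hg)) (fun k' hk' y hy g hg hgs h => hm g hg hgs
      ⟨k', hk', y, hy, h⟩) hx₁ a1 h2
  have hK := hB'.cpt' (S := {r}) isClosed_singleton (by simpa using b2)
  set K := {y | y ∈ V' ∧ nr T x₀ y ∈ ({r} : Set ℝ)}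
  -- the bound near the sphere in the fibre
  have hK0 : IsCompact (K ∩ {y | Fib s x y}) := by
    have d1 : ContinuousOn (nr s x) K :=
      (contOn_nr fun g hg => hB'.hol g (hsT hg)).mono fun _ k => k.1
    obtain ⟨v, hv, e⟩ := continuousOn_iff_isClosed.1 d1 {0} isClosed_singleton
    have e' : K ∩ {y | Fib s x y} = K ∩ v := by
      rw [inter_comm K v, ← e]
      exact Set.ext fun y => ⟨fun k => ⟨nr_eq_zero.2 k.2, k.1⟩, fun k => ⟨k.2, nr_eq_zero.1 k.1⟩⟩
    rw [e']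
    exact hK.inter_right hv
  have hw : ∀ y ∈ K ∩ {y | Fib s x y}, ContinuousAt (ext G u) y := fun y hy =>
    PHAt.cont (ext_spec hsnc hu hy.1.1.1 fun k' hk' => b3 y hy.1.1 hy.2 hy.1.2 k' hk').1
  obtain ⟨C, hC⟩ := hK0.exists_bound_of_continuousOn fun y hy => (hw y hy).continuousWithinAt
  have h4 := ev_not_fib (H := s) (x := x) (hK.diff (isOpen_interior (s := {y | |ext G u y| < C + 1})))
    (fun g hg => (hB'.hol g (hsT hg) x hx).continuousAt)
    (fun g hg y hy => (hB'.hol g (hsT hg) y hy.1.1).continuousAt) fun y hy hf =>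
      hy.2 (mem_interior_iff_mem_nhds.2 ((hw y ⟨hy.1, hf⟩).abs.eventually_lt continuousAt_const
        ((hC y ⟨hy.1, hf⟩).trans_lt (lt_add_one _))))
  obtain ⟨U, hU, hUo, hxU⟩ := eventually_nhds_iff.1 ((h4.and ((hB'.isOpen.eventually_mem hx).and
    ((contAt_nr fun g hg => hB'.hol g hg x hx).eventually_lt continuousAt_const b1))).and
    ((blow hu hx.1 hk h3.mem hgen (C + 1 + r)).and ((ev_off hsnc x).and h3.indS.near)))
  obtain ⟨x', ⟨t, ht, tc, ti⟩, hx'⟩ := ((hden x hx.1).and_eventually (hUo.eventually_mem hxU)).exists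
  obtain ⟨g, hg, g1, g2⟩ := (hU x' hx').2.2.2.ext ti (by omega)
  obtain ⟨g', hg', g3, g4⟩ := g2.ext ti (by rw [Finset.card_insert_of_notMem g1]; omega)
  have hth : ∀ a ∈ insert g s, ∀ y ∈ V', Hol n a y := fun a ha =>
    hB'.hol a (Finset.insert_subset (ht hg) hsT ha)
  obtain ⟨z, ⟨-, z1⟩, z2, z3⟩ := ((hG n W κ G V' (insert g s) ∅ x' hsnc hB'.isOpen hth (by simp)
    (by simpa using g2)).and_eventually (g4.near.and (hUo.eventually_mem hx'))).exists
  have z4 : ∀ y ∈ V', Fib (insert g s) z y → ∀ k', c k' ≠ 0 → y ∉ G k' := fun y hy hf k' hk' h =>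
    hm g (ht hg) g1 ⟨k', hk', y, hy, (z1 y hy hf).2 k' h⟩
  have z5 : z ∉ ⋃ l, G l := fun h => by
    obtain ⟨k', h⟩ := mem_iUnion.1 h
    by_cases e : k' = k
    · exact z4 z (hU z z3).1.2.1 (Fib.refl _ _) k hk (e ▸ h)
    · exact (hU z z3).2.2.1 k' (hgen k' e) h
  have key : ∀ w : W → ℝ, (∀ y, PHAt n (ext G u) y → PHAt n w y) → (∀ y, |w y| = |ext G u y|) →
      w z ≤ C + 1 + r := fun w w1 w2 => by
    obtain ⟨y, y1, y2, -, y3, y4⟩ := hMP n W V' T (insert g s) ∅ x₀ z r₁ r w hB' b2 hth (by simp)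
      (hU z z3).1.2.1 (hU z z3).1.2.2.le
      (fun y hy hf => ⟨(z1 y hy hf).1, fun _ => w1 y (ext_spec hsnc hu hy.1 (z4 y hy hf)).1⟩)
      (by simp [Fib]) fun k => hN n W _ g' z g3 z2 (k.mono fun y a b => a b g' (ht hg'))
    have y5 : |ext G u y| < C + 1 := by
      by_contra k
      exact (hU z z3).1.1 y ⟨⟨y1, y3⟩, fun k' =>
        k (interior_subset (s := {y | |ext G u y| < C + 1}) k')⟩
        (y2.mono (Finset.subset_insert _ _))
    have := nr_nonneg T x₀ z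
    have := le_abs_self (w y)
    rw [w2] at this
    linarith
  have k1 := key _ (fun _ h => h) fun _ => rfl
  have k2 := key (fun y => -ext G u y) (fun _ h => PHAt.neg h) fun _ => abs_neg _
  have k3 := (hU z z3).2.1 z5
  rw [← (ext_spec hsnc hu (hU z z3).1.2.1.1 (z4 z (hU z z3).1.2.1 (Fib.refl _ _))).2 z5] at k3
  exact k3.not_ge (abs_le.2 ⟨by linarith, k1⟩)

end Vale.Agent.P277Z.Rk
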