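import Vale.Agent.P277Z.Rk.Sk

/-!
# P277, block GLC: the local statements for maps to complex spaces
-/

open scoped Manifold ContDiff Topology Classical
open Vale.Agent.P277 hiding Amin IsFlipR
open Vale.Agent.P272.K Set Filter
open Vale.Agent.P277Z.Slc
open Vale.Agent.P277Z.Glc (HolX Mf)

set_option linter.unusedSectionVars false

noncomputable section

namespace Vale.Agent.P277Z.Rk

namespace Gb

variable {n : ℕ} {W : Type} [TopologicalSpace W] [ChartedSpace (Cm n) W]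
  [IsManifold 𝓘(ℂ, Cm n) ω W] {s t H T T' : Finset (W → ℂ)} {x x₀ : W} {X X' : CSp}
  {p : W → X.pt} {p' : W → X'.pt} {V V' G : Set W}

theorem mono (h : IndS n t x) (e : s ⊆ t) : IndS n s x :=
  Ind.comp h (fun g : s => ⟨g, e g.2⟩) fun _ _ k => Subtype.ext (congrArg Subtype.val k :)

theorem span (hd : Disjoint H s) (h : IndS n (H ∪ s) x) (hT : ∀ g ∈ T, Hol n g x)
    (hs : ∀ g ∈ s, ∀ e : Chart n W, At e x →
      dd g e x ∈ Submodule.span ℂ ((fun g => dd g e x) '' ↑T)) :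
    ∃ s' ⊆ T, s'.card = s.card ∧ Disjoint H s' ∧ IndS n (H ∪ s') x := by
  have he := at_chartAt (n := n) x
  generalize chartAt (Cm n) x = e at he
  obtain ⟨b, b1, b2, b3, b4⟩ := exists_linearIndepOn_extension (K := ℂ) (v := fun g => dd g e x)
    (s := ↑H) (t := ↑(H ∪ T)) ((mono h Finset.subset_union_left).2 e he) (by simp)
  lift b to Finset (W → ℂ) using (Finset.finite_toSet _).subset b1
  have b5 : (H ∪ s).card ≤ b.card := by
    have := linearIndependent_le_span_aux' _ (h.2 e he) (b.image (fun g => dd g e x) : Finset _) (by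
      rintro _ ⟨⟨g, hg⟩, rfl⟩
      rw [Finset.coe_image]
      rcases Finset.mem_union.1 hg with k | k
      · exact b3 ⟨g, by simp [k], rfl⟩
      · exact Submodule.span_le.2 ((image_mono (by simp)).trans b3) (hs g k e he))
    simp only [Fintype.card_coe, SetLike.coe_sort_coe] at this
    exact this.trans Finset.card_image_le
  have b6 : H ⊆ b := b2
  obtain ⟨s', s1, s2⟩ := Finset.exists_subset_card_eq (s := b \ H) (n := s.card) (by
    rw [Finset.card_union_of_disjoint hd] at b5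
    rw [Finset.card_sdiff_of_subset b6]
    omega)
  refine ⟨s', fun g k => (Finset.mem_union.1 (b1 (Finset.mem_sdiff.1 (s1 k)).1)).resolve_left
    (Finset.mem_sdiff.1 (s1 k)).2, s2, Finset.disjoint_sdiff.mono_right s1,
    mono (t := b) (Ind.of_chart (fun g => ?_) he b4)
      (Finset.union_subset b6 (s1.trans Finset.sdiff_subset))⟩
  rcases Finset.mem_union.1 (b1 g.2) with k | k
  · exact h.1 ⟨g, Finset.mem_union_left _ k⟩
  · exact hT g k

theorem hol {d : ℕ} {W : Mf d} {p : W.T → X.pt} (hp : HolX d X p) {x : W.T} {g : W.T → ℂ}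
    (h : g ∈ Fn X p x) : Hol d g x :=
  let ⟨φ, h1, h2⟩ := h
  Hol.congr (hp.2 x φ h1) h2.symm

theorem rk (h : Crd n X p V T x₀) (hT : ∀ g ∈ T, Hol n g x) (hx : x ∈ V) {m : ℕ}
    (k : RkAt n X p m x) : ∃ s ⊆ T, s.card = m ∧ IndS n s x := by
  obtain ⟨s, s1, s2, s3⟩ := k
  obtain ⟨s', a1, a2, -, a3⟩ := span (H := ∅) (Finset.disjoint_empty_left s) (by simpa using s3) hT
    fun g k => h.span x hx g (s1 k)
  exact ⟨s', a1, a2.trans s2, by simpa using a3⟩

theorem rkG (h : Crd n X p V T x₀) (hT : ∀ g ∈ T, Hol n g x) (hx : x ∈ V) {m : ℕ}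
    (k : RkGAt n X p G m x) : ∃ s ⊆ T, s.card = m ∧ IndG n G s x := by
  obtain ⟨s, s1, s2, s3, ζ, s4, s5, s6⟩ := k
  obtain ⟨s', a1, a2, a3, a4⟩ := span (H := {ζ}) (Finset.disjoint_singleton_left.2 s5)
    (by simpa using s6) hT fun g k => h.span x hx g (s1 k)
  exact ⟨s', a1, a2.trans s2, s3, ζ, s4, Finset.disjoint_singleton_left.1 a3, by simpa using a4⟩

theorem nr_mono (h : T ⊆ T') (x₀ x : W) : nr T x₀ x ≤ nr T' x₀ x :=
  Finset.sum_le_sum_of_subset_of_nonneg h fun _ _ _ => by positivity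

theorem box [T2Space W] (h : Crd n X p V T x₀) (h' : Crd n X' p' V' T' x₀)
    (hT : ∀ g ∈ T ∪ T', ∀ x ∈ V ∩ V', Hol n g x) : ∃ r₀, Box n (V ∩ V') (T ∪ T') x₀ r₀ := by
  obtain ⟨r, r0, K, k1, k2, k3⟩ := h.cpt
  obtain ⟨r', r0', K', k1', k2', k3'⟩ := h'.cpt
  refine ⟨min r r', h.isOpen.inter h'.isOpen, hT, ⟨h.mem, h'.mem⟩, lt_min r0 r0', ?_⟩
  have c : ContinuousOn (nr (T ∪ T') x₀) (K ∩ K') := continuousOn_finsetSum _ fun g hg x hx =>
    (((hT g hg x ⟨k1 hx.1, k1' hx.2⟩).continuousAt.sub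
      continuousAt_const).norm.pow 2).continuousWithinAt
  have e : {x | x ∈ V ∩ V' ∧ nr (T ∪ T') x₀ x ≤ min r r'} =
      K ∩ K' ∩ nr (T ∪ T') x₀ ⁻¹' Iic (min r r') := Set.ext fun x =>
    ⟨fun k => ⟨⟨k3 x k.1.1 ((nr_mono Finset.subset_union_left _ _).trans (k.2.trans
      (min_le_left _ _))), k3' x k.1.2 ((nr_mono Finset.subset_union_right _ _).trans (k.2.trans
      (min_le_right _ _)))⟩, k.2⟩, fun k => ⟨⟨k1 k.1.1, k1' k.1.2⟩, k.2⟩⟩
  rw [e]
  exact (k2.inter k2').of_isClosed_subset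
    (c.preimage_isClosed_of_isClosed (k2.inter k2').isClosed isClosed_Iic) inter_subset_left

end Gb

open Gb

theorem fibX_of (h1 : StFib) (h2 : StCrd) (h3 : StDense) : StFibX := by
  intro d W X Y p q O A v x₀ l hp hq hO hF hA r1 r2 hx hl r3
  have := ChartedSpace.secondCountable_of_sigmaCompact (Cm (d + 1)) W.T
  obtain ⟨V, T, c1, hV⟩ := h2 _ W Y q O x₀ hq hO hx
  obtain ⟨V', T', c2, -⟩ := h2 _ W X p univ x₀ hp isOpen_univ trivial
  have f : ∀ x ∈ V ∩ V', ↑(T ∪ T') ⊆ Fn Y q x := fun x hx => by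
    rw [Finset.coe_union]
    exact union_subset (c1.fn x hx.1) ((c2.fn x hx.2).trans (hF x))
  obtain ⟨r₀, hB⟩ := box c1 c2 fun g k x hx => hol hq (f x hx k)
  obtain ⟨s₀, a1, a2, a3⟩ := rkG c2 (fun g k => hol hp (c2.fn _ c2.mem k)) c2.mem r3
  obtain ⟨k, hk, y, hy, s, b1, b2, b3⟩ := h1 _ W.T _ W.G A _ _ T' s₀ x₀ r₀ l W.snc hB
    Finset.subset_union_right
    (fun x hx y hy e => hA x y (hV hx.1) (hV hy.1) (c2.inj x hx.2 y hy.2 e))
    (fun x hx => ((h3 _ W Y q _ hq r1 x).and_eventually (c1.isOpen.eventually_mem hx.1)).mono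
      fun y k => (rk c1 (fun g e => hol hq (c1.fn y k.2 e)) k.2 k.1).imp fun s e =>
        ⟨e.1.trans Finset.subset_union_left, e.2⟩)
    (fun y hy s e hs => by
      by_contra k
      obtain ⟨s', e1, e2⟩ := Finset.exists_subset_card_eq (s := s) (n := v + 2) (by omega)
      exact r2 ⟨y, s', fun g k => c2.fn y hy.2 (e (e1 k)), e2, mono hs e1⟩) hl a1 a3
  exact ⟨k, hk, y, hV hy.1, s, fun g e => f y hy (b1 e), by omega, b3⟩

theorem greenX_of (h1 : StGreen) (h2 : StCrd) (h3 : StDense) : StGreenX := by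
  intro d W X X' p p' O O' c u m x₀ l hp hp' hO hO' hG r1 r2 hx hx' hl
  have := ChartedSpace.secondCountable_of_sigmaCompact (Cm d) W.T
  obtain ⟨V, T, c1, hV⟩ := h2 _ W X p O x₀ hp hO hx
  obtain ⟨V', T', c2, hV'⟩ := h2 _ W X' p' O' x₀ hp' hO' hx'
  have f : ∀ x ∈ V ∩ V', ↑(T ∪ T') ⊆ Fn X p x ∪ Fn X' p' x := fun x hx => by
    rw [Finset.coe_union]
    exact union_subset_union (c1.fn x hx.1) (c2.fn x hx.2)
  obtain ⟨r₀, hB⟩ := box c1 c2 fun g k x hx => (f x hx k).elim (hol hp) (hol hp')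
  exact h1 _ W.T _ W.G c u _ _ x₀ r₀ m l W.snc hB (fun y hy => hG y ⟨hV hy.1, hV' hy.2⟩)
    (fun x hx => ((h3 _ W X p _ hp r1 x).and_eventually (c1.isOpen.eventually_mem hx.1)).mono
      fun y k => (rk c1 (fun g e => hol hp (c1.fn y k.2 e)) k.2 k.1).imp fun s e =>
        ⟨e.1.trans Finset.subset_union_left, e.2⟩)
    (fun k hk y hy s e => r2 k hk y s fun g k => f y hy (e k)) hl

end Vale.Agent.P277Z.Rk
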