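import Vale.Agent.P277Z.Rk.Sk
import Vale.Agent.P277Z.Glc.Api
import Vale.Agent.P277.H762.CL5

/-!
# P277, block GLC: the divisor of the image of a component
-/

open scoped Manifold ContDiff Topology Classical
open Vale.Agent.P277 hiding Amin IsFlipR
open Vale.Agent.P277.PH
open Vale.Agent.P272.K Vale.Agent.P285.H281.FD Set Filter
open Vale.Agent.P277Z.Slc (LEq)
open Vale.Agent.P277Z.Glc (HolM Mf Mon)
open Vale.Agent.P277Z.Val (holF_cont)

noncomputable section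

namespace Vale.Agent.P277Z.Rk

namespace LbH

variable {n : ℕ} {W' W : Mf n} {π : W'.T → W.T}

/-- the local inverse at a point where `π` is a local isomorphism -/
theorem exists_inv (hπ : HolM n n π) {y : W'.T} (h : Et π y) {e : Chart n W.T} (he : At e (π y)) :
    ∃ ξ : Cm n → W'.T, Val.Crd (fun x => e (π x)) ξ y ∧
      Tendsto (fun x => ξ (e x)) (𝓝 (π y)) (𝓝 y) ∧ ∀ᶠ x in 𝓝 (π y), π (ξ (e x)) = x := by
  obtain ⟨ξ, hξ⟩ := Val.IsCo.crd' (t := fun x => e (π x)) (y := y) fun e' he' =>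
    ⟨analyticAt_pi_iff.2 fun i => hπ.2 y _ (Val.holF_chart he i) e' he', h e' e he' he⟩
  have h1 : Tendsto (fun x => ξ (e x)) (𝓝 (π y)) (𝓝 y) := hξ.tend.comp (e.continuousAt he.2)
  refine ⟨ξ, hξ, h1, ?_⟩
  filter_upwards [(e.continuousAt he.2).eventually hξ.right, e.open_source.mem_nhds he.2,
    ((hπ.1.tendsto y).comp h1).eventually (e.open_source.mem_nhds he.2)] with x a b c
    using e.injOn c b a

/-- the image of a smooth hypersurface, outside the critical values -/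
theorem hypAt (hπ : HolM n n π) (hc : IsClosed {y | ¬ Et π y})
    (hi : ∀ y, Et π y → ∀ y', π y' = π y → y' = y) {G : Set W'.T} {y : W'.T} {ζ : W'.T → ℂ}
    (hy : y ∈ G) (hζ : LEq n G y ζ) (h : Et π y) :
    T3.IsHypAt n (π '' G \ π '' {y | ¬ Et π y}) (π y) := by
  have he := at_chartAt (n := n) (π y)
  set e := chartAt (Cm n) (π y)
  obtain ⟨ξ, h1, h2, h3⟩ := exists_inv hπ h he
  have h4 : AnalyticAt ℂ (fun w => ζ (ξ w)) (e (π y)) :=
    h1.an.hol (by rw [h1.inv]; exact hζ.hol)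
  refine ⟨e, he, fun w => ζ (ξ w), h4, (congrArg ζ h1.inv).trans (hζ.mem.2 hy), fun h0 => ?_, ?_⟩
  · have he' := at_chartAt (n := n) y
    set e' := chartAt (Cm n) y
    refine (hζ.2 e' he').2 (hζ.mem.2 hy) ?_
    have h5 : (fun z => ζ (e'.symm z)) =ᶠ[𝓝 (e' y)] fun z => ζ (ξ (e (π (e'.symm z)))) :=
      ((Slc.tendsto_symm he').eventually h1.left).mono fun z hz => congrArg ζ hz.symm
    have h6 := fderiv_fun_comp (g := fun w => ζ (ξ w)) (f := fun z => e (π (e'.symm z))) (e' y)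
      (by rw [e'.left_inv he'.2]; exact h4.differentiableAt) (h1.isCo' e' he').1.differentiableAt
    rw [h5.fderiv_eq, h6, e'.left_inv he'.2, h0, ContinuousLinearMap.zero_comp]
  · filter_upwards [h3, h2.eventually hζ.1,
      h2.eventually (hc.isOpen_compl.mem_nhds (not_not.2 h))] with x a b c
    have c' : Et π (ξ (e x)) := not_not.1 c
    refine ⟨fun ⟨⟨z, z1, z2⟩, _⟩ => b.2 (hi _ c' z (z2.trans a.symm) ▸ z1),
      fun k => ⟨⟨_, b.1 k, a⟩, fun ⟨z, z1, z2⟩ => z1 (hi _ c' z (z2.trans a.symm) ▸ c')⟩⟩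

end LbH

theorem lb_of (hC : StCrit) : StLb := by
  intro k W' W π l hk hB hl
  obtain ⟨c1, c2, c3, c4⟩ := hC k W' W π hk hB
  have h1 : IsClosed (π '' {y | ¬ Et π y}) := (c2.isCompact.image hB.hol.1).isClosed
  have h2 : IsClosed (π '' W'.G l) := ((W'.closed l).isCompact.image hB.hol.1).isClosed
  obtain ⟨L, s, hL, hs, hz⟩ := H762.closure_lb rfl (E := π '' W'.G l \ π '' {y | ¬ Et π y}) h1 c1
    disjoint_sdiff_left (by rw [sdiff_union_self]; exact h2.union h1) (by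
      rintro _ ⟨⟨y, hy, rfl⟩, h⟩
      obtain ⟨ζ, hζ⟩ := W'.exEq y
      exact LbH.hypAt hB.hol c2 c3 hy (hζ l) (not_not.1 fun a => h ⟨y, a, rfl⟩))
  have h3 := closure_minimal (sdiff_subset (t := π '' {y | ¬ Et π y})) h2
  have h4 : ∀ y i, π y ∈ L.U i → HolF (k + 2) (fun y => s i (π y)) y := fun y i hi =>
    hB.hol.2 y _ fun e he => (hs.holo i e _ he hi).analyticAt
  obtain ⟨m, hm⟩ := Glc.exists_mon_cover (U := fun i => π ⁻¹' L.U i)
    (fun i => (hL.isOpen i).preimage hB.hol.1) (fun y => hL.cover (π y)) (fun i y => s i (π y))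
    (fun i y hi => (Glc.exists_mon (h4 y i hi) (by
      filter_upwards [hB.hol.1.continuousAt.eventually_mem ((hL.isOpen i).mem_nhds hi)]
        with x a b c
      obtain ⟨z, z1, z2⟩ := h3 ((hz i _ a).1.1 c)
      exact b (mem_iUnion.2 ⟨l, hB.inj x b z z2 ▸ z1⟩))).elim fun _ h => ⟨_, h⟩)
    fun i j y hi hj => ⟨fun x => L.g j i (π x), hB.hol.2 y _ fun e he =>
      (hL.holo j i e _ he hj hi).analyticAt, hL.ne_zero j i _ hj hi, by
        filter_upwards [hB.hol.1.continuousAt.eventually_mem ((hL.isOpen i).mem_nhds hi),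
          hB.hol.1.continuousAt.eventually_mem ((hL.isOpen j).mem_nhds hj)] with x a b _
          using hs.change j i _ b a⟩
  have h5 : ∀ y i, π y ∈ L.U i → ∀ l', y ∈ W'.G l' → 0 ≤ m l' := fun y i hi l' hl' =>
    (hm i y hi).nonneg' (holF_cont (h4 y i hi)) (by simp) hl'
  have h6 : ∀ y, π y ∈ closure (π '' W'.G l \ π '' {y | ¬ Et π y}) ↔
      ∃ l', y ∈ W'.G l' ∧ (m l').toNat ≠ 0 := fun y => by
    obtain ⟨i, hi⟩ := hL.cover (π y)
    obtain ⟨g, a, b, c⟩ := (hm i y hi).ext (h5 y i hi)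
    rw [← (hz i _ hi).1, W'.eq_of_off (holF_cont (h4 y i hi)) (holF_cont a) c, b]
    refine exists_congr fun l' => and_congr_right fun hl' => ?_
    have := h5 y i hi l' hl'
    omega
  refine ⟨L, s, fun l' => (m l').toNat, hL, hs, fun y i hi => (hm i y hi).change fun l' hl' =>
    (Int.toNat_of_nonneg (h5 y i hi l' hl')).symm, ?_, fun l' hl' h => by_contra fun h0 => ?_,
    fun l' h0 => ?_⟩
  · obtain ⟨y, a, b, c⟩ := c4 l hl
    obtain ⟨l', d, e⟩ := (h6 y).1 (subset_closure ⟨⟨y, a, rfl⟩, fun ⟨z, z1, z2⟩ =>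
      z1 (c3 y b z z2 ▸ b)⟩)
    rwa [not_not.1 fun f => c l' f d] at e
  · obtain ⟨y, a, b, c⟩ := c4 l' h
    obtain ⟨z, z1, z2⟩ := h3 ((h6 y).2 ⟨l', a, h0⟩)
    exact c l hl'.symm (c3 y b z z2 ▸ z1)
  · rintro _ ⟨y, a, rfl⟩
    exact h3 ((h6 y).2 ⟨l', a, h0⟩)

end Vale.Agent.P277Z.Rk
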