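import Vale.Agent.P277Z.Rk.Sk
import Vale.Agent.P277Z.Slc.Flat
import Mathlib.Analysis.Complex.AbsMax

/-!
# P277, block GLC: functions on smooth fibres, the maximum principle
-/

open scoped Manifold ContDiff Topology Classical
open Vale.Agent.P277.PH (PHAt)
open Vale.Agent.P272.K Set Filter Metric
open Vale.Agent.P277Z.Slc (Ind dd ForW at_chartAt ind_iff_surj)

set_option linter.unusedSectionVars false

noncomputable section

namespace Vale.Agent.P277Z.Rk

namespace Mp

variable {n : ℕ} {W : Type} [TopologicalSpace W] [ChartedSpace (Cm n) W]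
  [IsManifold 𝓘(ℂ, Cm n) ω W] {s : Finset (W → ℂ)} {x : W}

theorem card_le {α : Type} [Fintype α] {h : α → W → ℂ} (hi : Ind n h x) : Fintype.card α ≤ n := by
  simpa using LinearMap.finrank_le_finrank_of_surjective
    (f := (ContinuousLinearMap.pi fun a => dd (h a) (chartAt (Cm n) x) x).toLinearMap)
    ((ind_iff_surj _).1 (hi.2 _ (at_chartAt x)))

variable (n) in
/-- `γ` is at `w` a parametrisation of the fibre of `s` through `x` -/
structure Par (s : Finset (W → ℂ)) (x : W) {d : ℕ} (γ : Cm d → W) (w : Cm d) : Prop where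
  fib : ∀ᶠ w' in 𝓝 w, Fib s x (γ w')
  cont : ContinuousAt γ w
  an : ∀ f, Hol n f (γ w) → AnalyticAt ℂ (fun w => f (γ w)) w
  der : ∃ (e : Chart n W) (A : Cm d →L[ℂ] Cm n), At e (γ w) ∧ ∀ f, Hol n f (γ w) →
    fderiv ℂ (fun w => f (γ w)) w = (dd f e (γ w)).comp A
  ev : ∀ P : W → Prop, (∀ᶠ w' in 𝓝 w, P (γ w')) → ∀ᶠ y in 𝓝 (γ w), Fib s x y → P y

theorem Par.ev' {d : ℕ} {γ : Cm d → W} {w : Cm d} (h : Par n s x γ w) {P : W → Prop}
    (hP : ∀ᶠ y in 𝓝 (γ w), Fib s x y → P y) : ∀ᶠ w' in 𝓝 w, P (γ w') := by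
  filter_upwards [h.cont.eventually hP, h.fib] with w' a b using a b

theorem exists_par (h : IndS n s x) : ∃ (d : ℕ) (γ : Cm d → W) (w₀ : Cm d), γ w₀ = x ∧
    ∀ᶠ w in 𝓝 w₀, Par n s x γ w := by
  have he := at_chartAt (n := n) x
  set e := chartAt (Cm n) x
  obtain ⟨Φ, P, k0, hΦ, -, hs⟩ := Ind.par h (Nat.add_sub_cancel' (card_le h)) he
  set c : s → ℂ := fun a => (a : W → ℂ) x with hc
  have k1 : ∀ y ∈ e.source, Fib s x y → Φ (e y) = (c, P (e y)) := fun y hy hz => by
    rw [hΦ, e.left_inv hy]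
    exact Prod.ext (funext fun a => hz a a.2) rfl
  have k2 := k1 x he.2 fun _ _ => rfl
  have k3 : (c, P (e x)) ∈ Φ.target := k2 ▸ Φ.map_source k0
  have k4 : Φ.symm (c, P (e x)) = e x := by rw [← k2, Φ.left_inv k0]
  have k5 : ∀ w, (c, w) ∈ Φ.target → AnalyticAt ℂ (fun w => Φ.symm (c, w)) w := fun w hw =>
    AnalyticAt.fun_comp (g := Φ.symm) (f := fun w => (c, w)) (hs _ hw)
      (analyticAt_const.prod analyticAt_id)
  have k6 : ∀ᶠ w in 𝓝 (P (e x)), (c, w) ∈ Φ.target ∧ Φ.symm (c, w) ∈ e.target :=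
    ((continuous_const.prodMk continuous_id).continuousAt.eventually
      (Φ.open_target.mem_nhds k3)).and ((k5 _ k3).continuousAt.eventually
        (e.open_target.mem_nhds (by simpa only [k4] using e.map_source he.2)))
  refine ⟨_, fun w => e.symm (Φ.symm (c, w)), P (e x), by simp only [k4, e.left_inv he.2], ?_⟩
  filter_upwards [k6.eventually_nhds] with w hw
  obtain ⟨a, b⟩ := hw.self_of_nhds
  have a1 : At e (e.symm (Φ.symm (c, w))) := ⟨he.1, e.map_target b⟩
  have a2 : ∀ f, Hol n f (e.symm (Φ.symm (c, w))) →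
      AnalyticAt ℂ (fun z => f (e.symm z)) (Φ.symm (c, w)) := fun f hf => by
    have := hf e a1
    rwa [e.right_inv b] at this
  refine ⟨hw.mono fun w' h' g hg => ?_, 
    ContinuousAt.comp (f := fun w => Φ.symm (c, w)) (e.continuousAt_symm b) (k5 w a).continuousAt,
    fun f hf => AnalyticAt.fun_comp (g := fun z => f (e.symm z)) (a2 f hf) (k5 w a),
    ⟨e, fderiv ℂ (fun w => Φ.symm (c, w)) w, a1, fun f hf => ?_⟩, fun Q hQ => ?_⟩
  · have := Φ.right_inv h'.1
    rw [hΦ] at this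
    exact congrFun (congrArg Prod.fst this) ⟨g, hg⟩
  · rw [dd, e.right_inv b]
    exact fderiv_fun_comp w (a2 f hf).differentiableAt (k5 w a).differentiableAt
  · have a3 : Tendsto e (𝓝 (e.symm (Φ.symm (c, w)))) (𝓝 (Φ.symm (c, w))) := by
      have := e.continuousAt a1.2
      rwa [ContinuousAt, e.right_inv b] at this
    have a4 : P (Φ.symm (c, w)) = w := by
      have := Φ.right_inv a
      rw [hΦ] at this
      exact congrArg Prod.snd this
    have a5 := (P.continuous.tendsto _).comp a3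
    rw [a4] at a5
    filter_upwards [a5.eventually hQ, e.open_source.mem_nhds a1.2,
      a3.eventually (Φ.open_source.mem_nhds (Φ.map_target a))] with y b1 b2 b3 b4
    simpa only [Function.comp, ← k1 y b2 b4, Φ.left_inv b3, e.left_inv b2] using b1

/-- the identity theorem on a smooth fibre -/
theorem ident {A : Finset (W → ℂ)} (h : IndS n s x) (hA : ∀ g ∈ A, Hol n g x) :
    ∀ᶠ y in 𝓝 x, Fib s x y → ∀ y₁, (∀ᶠ z in 𝓝 y, Fib s x z → Fib A y₁ z) →
      ∀ᶠ z in 𝓝 x, Fib s x z → Fib A y₁ z := by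
  obtain ⟨d, γ, w₀, rfl, hp⟩ := exists_par h
  have h0 := hp.self_of_nhds
  obtain ⟨r, hr, hb⟩ := Metric.eventually_nhds_iff_ball.1 (hp.and (h0.cont.eventually
    ((eventually_all_finset A).2 fun g hg => (hA g hg).near)))
  refine h0.ev _ ?_
  filter_upwards [ball_mem_nhds w₀ hr] with w hw y₁ h1
  refine h0.ev _ ?_
  filter_upwards [ball_mem_nhds w₀ hr] with w' hw' g hg
  exact AnalyticOnNhd.eqOn_of_preconnected_of_eventuallyEq (g := fun _ => g y₁)
    (fun z hz => (hb z hz).1.an g ((hb z hz).2 g hg)) analyticOnNhd_const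
    (convex_ball _ _).isPreconnected hw (((hb w hw).1.ev' h1).mono fun z hz => hz g hg) hw'

theorem nr_cont {T : Finset (W → ℂ)} (hT : ∀ g ∈ T, Hol n g x) (x₀ : W) :
    ContinuousAt (nr T x₀) x :=
  tendsto_finsetSum T fun g hg => (((hT g hg).continuousAt.sub continuousAt_const).norm.pow 2 :)

theorem nr_eq (T : Finset (W → ℂ)) (x₀ y z : W) : nr T x₀ z - nr T x₀ y = nr T y z +
    ((∑ g ∈ T, 2 * (starRingEnd ℂ) (g y - g x₀) * g z).re -
      (∑ g ∈ T, 2 * (starRingEnd ℂ) (g y - g x₀) * g y).re) := by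
  simp only [nr, Complex.re_sum, ← Finset.sum_sub_distrib, ← Finset.sum_add_distrib]
  refine Finset.sum_congr rfl fun g _ => ?_
  simp only [← Complex.normSq_eq_norm_sq, Complex.normSq_apply, Complex.mul_re, Complex.mul_im,
    Complex.sub_re, Complex.sub_im, Complex.conj_re, Complex.conj_im, Complex.re_ofNat,
    Complex.im_ofNat]
  ring

/-- a local maximum on a smooth fibre -/
theorem loc_max {T : Finset (W → ℂ)} {u : W → ℝ} (h : IndS n s x) (hT : ∀ g ∈ T, Hol n g x)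
    (hu : PHAt n u x) (x₀ : W) (hm : ∀ᶠ z in 𝓝 x, Fib s x z → u z + nr T x₀ z ≤ u x + nr T x₀ x) :
    ∀ᶠ z in 𝓝 x, Fib s x z → Fib T x z := by
  obtain ⟨d, γ, w₀, rfl, hp⟩ := exists_par h
  have h0 := hp.self_of_nhds
  obtain ⟨F, hF, e⟩ := hu
  set G : W → ℂ := fun z => F z + ∑ g ∈ T, 2 * (starRingEnd ℂ) (g (γ w₀) - g x₀) * g z with hG
  have h1 : AnalyticAt ℂ (fun w => Complex.exp (G (γ w))) w₀ :=
    ((h0.an F hF).add (Finset.analyticAt_fun_sum T fun g hg =>
      analyticAt_const.mul (h0.an g (hT g hg)))).cexp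
  have h2 : ∀ᶠ w in 𝓝 w₀, (G (γ w)).re + nr T (γ w₀) (γ w) ≤ (G (γ w₀)).re := by
    filter_upwards [h0.ev' hm, h0.cont.eventually e] with w a b
    have := nr_eq T x₀ (γ w₀) (γ w)
    simp only [hG, Complex.add_re]
    linarith [e.self_of_nhds]
  have h3 : ∀ y z, 0 ≤ nr T y z := fun y z => Finset.sum_nonneg fun _ _ => sq_nonneg _
  have h4 := Complex.eventually_eq_of_isLocalMax_norm
    (h1.eventually_analyticAt.mono fun _ h => h.differentiableAt) (h2.mono fun w a => by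
      simp only [Function.comp, Complex.norm_exp, Real.exp_le_exp]
      linarith [h3 (γ w₀) (γ w)])
  refine h0.ev _ ?_
  filter_upwards [h2, h4] with w a b g hg
  have c := congrArg norm b
  rw [Complex.norm_exp, Complex.norm_exp, Real.exp_eq_exp] at c
  have := (Finset.sum_eq_zero_iff_of_nonneg fun _ _ => sq_nonneg _).1
    (le_antisymm (by linarith : nr T (γ w₀) (γ w) ≤ 0) (h3 (γ w₀) (γ w))) g hg
  exact sub_eq_zero.1 (norm_eq_zero.1 (pow_eq_zero_iff two_ne_zero |>.1 this))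

theorem fib_eq {y : W} (h : Fib s x y) : Fib s y = Fib s x :=
  funext fun _ => propext (forall₂_congr fun g hg => by rw [h g hg])

end Mp

open Mp

theorem lc : StLC := by
  intro n W _ _ _ _ _ s g x hs hg h
  by_cases h0 : g ∈ s
  · exact .of_forall fun y hy => hy g h0
  obtain ⟨d, γ, w₀, rfl, hp⟩ := exists_par hs
  have h1 := hp.self_of_nhds
  obtain ⟨r, hr, hb⟩ := Metric.eventually_nhds_iff_ball.1 (hp.and ((h1.ev' h).and
    (h1.cont.eventually (hg.near.and (Ind.near hs)))))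
  refine h1.ev _ ?_
  filter_upwards [ball_mem_nhds w₀ hr] with w hw
  refine isOpen_ball.is_const_of_fderiv_eq_zero (𝕜 := ℂ) (f := fun w => g (γ w))
    (convex_ball _ _).isPreconnected (fun z hz =>
      ((hb z hz).1.an g (hb z hz).2.2.1).differentiableAt.differentiableWithinAt)
    (fun z hz => ?_) hw (mem_ball_self hr)
  obtain ⟨a, b, c, c'⟩ := hb z hz
  obtain ⟨e, A, he, hA⟩ := a.der
  have h2 : dd g e (γ z) ∈ Submodule.span ℂ ((fun f => dd f e (γ z)) '' ↑s) := by
    by_contra k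
    refine b.resolve_left h0 (Ind.of_chart (fun f => ?_) he ?_)
    · exact (Finset.mem_insert.1 f.2).elim (fun k => by rwa [k]) fun k => c'.1 ⟨f, k⟩
    · have : LinearIndepOn ℂ (fun f => dd f e (γ z)) ↑(insert g s) := by
        rw [Finset.coe_insert]
        exact (linearIndepOn_insert h0).2 ⟨c'.2 e he, k⟩
      exact this
  rw [hA g c]
  refine Submodule.span_induction (p := fun L _ => L.comp A = 0) ?_ (by simp)
    (fun L L' _ _ k k' => by rw [ContinuousLinearMap.add_comp, k, k', add_zero])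
    (fun t L _ k => by rw [ContinuousLinearMap.smul_comp, k]; ext; simp) h2
  rintro _ ⟨f, hf, rfl⟩
  rw [← hA f (c'.1 ⟨f, hf⟩), EventuallyEq.fderiv_eq (f := fun _ => f (γ w₀))
    (a.fib.mono fun _ k => k f hf), fderiv_fun_const, Pi.zero_apply]

theorem nlc : StNLC := by
  intro n W _ _ _ _ _ s g x h0 hs h
  have he := at_chartAt (n := n) x
  have h1 := hs.comp (fun f : s => ⟨f, Finset.mem_insert_of_mem f.2⟩)
    fun f f' e => Subtype.ext (congrArg Subtype.val e :)
  have h2 : Ind n (fun (f : s) y => (f : W → ℂ) y - (f : W → ℂ) x) x :=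
    ⟨fun f e he => (h1.1 f e he).sub analyticAt_const, fun e he => by
      simpa only [Slc.dd_sub_const] using h1.2 e he⟩
  obtain ⟨γ, π, k1, -, k2, k3, -, -, k4⟩ :=
    h2.param (fun _ => sub_self _) (Nat.add_sub_cancel' (card_le h2)) he
  obtain ⟨v, hv⟩ := (ind_iff_surj _).1 (hs.2 _ he) (Pi.single ⟨g, Finset.mem_insert_self g s⟩ 1)
  obtain ⟨u, hu⟩ := k4 v fun f => by
    rw [Slc.dd_sub_const]
    exact (congrFun hv ⟨f, Finset.mem_insert_of_mem f.2⟩).trans (Pi.single_eq_of_ne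
      (fun e => h0 ((Subtype.mk.inj e : (f : W → ℂ) = g) ▸ f.2)) _)
  have h3 := (hu g (hs.1 ⟨g, Finset.mem_insert_self g s⟩)).trans
    ((congrFun hv ⟨g, Finset.mem_insert_self g s⟩).trans (Pi.single_eq_same _ _))
  rw [ContinuousAt, k1] at k2
  rw [EventuallyEq.fderiv_eq (f := fun _ => g x) (by
    filter_upwards [k2.eventually h, k3] with w a b
    exact a fun f hf => sub_eq_zero.1 (b ⟨f, hf⟩))] at h3
  simp at h3

theorem mp : StMP := by
  intro n W _ _ _ _ _ V T s H x₀ x r₀ r u hB hr hs hH hx hx' hI h1 h2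
  set K := {y | y ∈ V ∧ nr T x₀ y ≤ r ∧ Fib s x y ∧ (∀ᶠ z in 𝓝 y, Fib s x z → Fib H x z) ∧
    ¬ ∀ᶠ z in 𝓝 y, Fib s x z → Fib T y z} with hK
  have hsub : K ⊆ {y | y ∈ V ∧ nr T x₀ y ≤ r₀} := fun y hy => ⟨hy.1, hy.2.1.trans hr⟩
  have hc : IsClosed K := isClosed_of_closure_subset fun y hy => by
    have a0 := (hB.cpt.isClosed.closure_subset_iff.2 hsub hy).1
    rw [mem_closure_iff_frequently] at hy
    have a1 : Fib s x y := fun g hg => isClosed_singleton.mem_of_frequently_of_tendsto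
      (hy.mono fun z hz => hz.2.2.1 g hg) (hs g hg y a0).continuousAt
    refine ⟨a0, isClosed_Iic.mem_of_frequently_of_tendsto (hy.mono fun z hz => hz.2.1)
      (nr_cont (fun g hg => hB.hol g hg y a0) x₀), a1, ?_, fun k => ?_⟩
    · have := ident (hI y a0 a1).1 fun g hg => hH g hg y a0
      rw [fib_eq a1] at this
      obtain ⟨z, a, b⟩ := (hy.and_eventually this).exists
      exact b a.2.2.1 x a.2.2.2.1
    · obtain ⟨z, a, b⟩ := (hy.and_eventually k.eventually_nhds).exists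
      exact a.2.2.2.2 (by rwa [fib_eq (b.self_of_nhds a.2.2.1)])
  have hu : ∀ y ∈ K, PHAt n u y := fun y hy =>
    (hI y hy.1 hy.2.2.1).2 (hy.2.2.2.1.self_of_nhds hy.2.2.1)
  obtain ⟨y, hy, hm⟩ := (hB.cpt.of_isClosed_subset hc hsub).exists_isMaxOn
    (f := fun y => u y + nr T x₀ y) ⟨x, hx, hx', fun _ _ => rfl, h1, h2⟩ fun y hy => by
      obtain ⟨F, hF, e⟩ := hu y hy
      exact (((Complex.continuous_re.continuousAt.comp (Hol.continuousAt hF)).congr
        (EventuallyEq.symm e)).add (nr_cont (fun g hg => hB.hol g hg y hy.1) x₀)).continuousWithinAt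
  obtain ⟨a0, a1, a2, a3, a4⟩ := hy
  have a5 : nr T x₀ y = r := by
    refine a1.eq_or_lt.resolve_right fun k => a4 ?_
    have b1 := fun g hg => hB.hol g hg y a0
    have b2 := ident (hI y a0 a2).1 b1
    have b3 := loc_max (hI y a0 a2).1 b1 (hu y ⟨a0, a1, a2, a3, a4⟩) x₀
    rw [fib_eq a2] at b2 b3
    refine b3 ?_
    filter_upwards [hB.isOpen.mem_nhds a0, (nr_cont b1 x₀).eventually_lt continuousAt_const k,
      a3.eventually_nhds, b2] with z c1 c2 c3 c4 c5
    refine hm ⟨c1, c2.le, c5, c3, fun c6 => a4 ?_⟩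
    have c7 := c4 c5 z c6
    rwa [fib_eq (c7.self_of_nhds a2)]
  exact ⟨y, a0, a2, a3.self_of_nhds a2, a5, a5 ▸ hm ⟨hx, hx', fun _ _ => rfl, h1, h2⟩⟩

end Vale.Agent.P277Z.Rk
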