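import Vale.Agent.P277Z.Rk.Sk
import Vale.Agent.P277Z.Slc.Sard
import Vale.Agent.P277Z.Slc.Unit
import Vale.Agent.P277Z.Slc.Bridge
import Vale.Agent.P277Z.Val.Fin

/-!
# P277, block GLC: general fibres and general spheres
-/

open scoped Manifold ContDiff Topology Classical
open Vale.Agent.P272.K Set Filter
open Vale.Agent.P277Z.Slc (LEq Ind dd ForW Reg Snc at_chartAt dd_sub_const ind_iff_surj)

noncomputable section

namespace Vale.Agent.P277Z.Rk

namespace Sph

variable {n : ℕ} {W : Type} [TopologicalSpace W] [ChartedSpace (Cm n) W] {x : W}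

theorem card_le {α : Type} [Fintype α] {h : α → W → ℂ} (hi : Ind n h x) : Fintype.card α ≤ n := by
  simpa using LinearMap.finrank_le_finrank_of_surjective
    (f := (ContinuousLinearMap.pi fun a => dd (h a) (chartAt (Cm n) x) x).toLinearMap)
    ((ind_iff_surj _).1 (hi.2 _ (at_chartAt x)))

theorem ind_inj {α : Type} {h : α → W → ℂ} (hi : Ind n h x) : Function.Injective h :=
  fun _ _ e => (hi.2 _ (at_chartAt x)).injective (congrArg (dd · (chartAt (Cm n) x) x) e)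

theorem indS_of {α : Type} {h : α → W → ℂ} (hi : Ind n h x) {t : Finset (W → ℂ)}
    (ht : ∀ g ∈ t, ∃ a, h a = g) : IndS n t x := by
  choose f hf using fun g : t => ht g g.2
  have h1 := hi.comp f fun a b e => Subtype.ext (by rw [← hf, e, hf])
  rwa [funext hf] at h1

theorem regS_of {κ : Type} {G : κ → Set W} {V : Set W} {s : Finset (W → ℂ)} {m : ℕ}
    (σ : s ≃ Fin m) (hG : Snc n G) (hs : ∀ g ∈ s, ∀ y ∈ V, Hol n g y)
    (h : Reg n G V (fun y i => (σ.symm i : W → ℂ) y) fun i => (σ.symm i : W → ℂ) x) :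
    RegS n G V s x := by
  intro z hz hf
  obtain ⟨ζ, h1, h2⟩ := hG z
  have h3 := h z hz (funext fun i => hf _ (σ.symm i).2) ζ h1
  have h4 : Ind n (Sum.elim (fun l : {l // z ∈ G l} => ζ l) fun i => (σ.symm i : W → ℂ)) z := by
    refine ⟨Sum.rec h2.1 fun i => hs _ (σ.symm i).2 z hz, fun e he => ?_⟩
    refine (congrArg (fun f => LinearIndependent ℂ f) (funext fun a => ?_)).mp (h3.2 e he)
    exact Sum.rec (fun _ => rfl) (fun i => dd_sub_const _ _ e z) a
  have h5 : ∀ g ∈ s, ∃ i, (σ.symm i : W → ℂ) = g := fun g hg =>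
    ⟨σ ⟨g, hg⟩, by rw [σ.symm_apply_apply]⟩
  refine ⟨indS_of h4 fun g hg => (h5 g hg).elim fun i hi => ⟨.inr i, hi⟩,
    fun k hk => ⟨hk, ζ k, h1 k, fun e => ?_, indS_of h4 fun g hg => ?_⟩⟩
  · obtain ⟨i, hi⟩ := h5 _ e
    exact Sum.inr_ne_inl (ind_inj h4 (a₁ := .inr i) (a₂ := .inl ⟨k, hk⟩) hi)
  · rcases Finset.mem_insert.1 hg with rfl | hg
    · exact ⟨.inl ⟨k, hk⟩, rfl⟩
    · exact (h5 g hg).elim fun i hi => ⟨.inr i, hi⟩

theorem cont_nr {V : Set W} {T : Finset (W → ℂ)} {x₀ : W} {r₀ : ℝ} (h : Box n V T x₀ r₀)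
    (hx : x ∈ V) : ContinuousAt (nr T x₀) x :=
  tendsto_finsetSum _ fun g hg => (((h.hol g hg x hx).continuousAt.sub_const _).norm).pow 2

theorem countable_image [SecondCountableTopology W] {S : Set W} {f : W → ℝ}
    (h : ∀ z ∈ S, ∀ᶠ w in 𝓝 z, w ∈ S → f w = f z) : (f '' S).Countable := by
  obtain ⟨t, -, h1, h2⟩ := TopologicalSpace.countable_cover_nhdsWithin (s := S)
    (f := fun z => {w | f w = f z}) fun z hz => eventually_nhdsWithin_iff.2 (h z hz)
  refine (h1.image f).mono ?_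
  rintro _ ⟨w, hw, rfl⟩
  obtain ⟨z, h3, h4⟩ := mem_iUnion₂.1 (h2 hw)
  exact ⟨z, h3, h4.symm⟩

end Sph

open Sph

theorem gen : StGen := by
  intro n W _ _ _ _ _ κ _ G V s H x hG hV hs hd hi
  have hG' := Slc.snc_of_isSnc hG
  let σ := s.equivFin
  have h1 := MeasureTheory.Measure.dense_of_ae (Slc.stSard_of Slc.stUnit n W κ G V _
    (fun y i => (σ.symm i : W → ℂ) y) hG' hV fun y hy i => hs _ (σ.symm i).2 y hy)
  have he := at_chartAt (n := n) x
  set e := chartAt (Cm n) x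
  obtain ⟨Φ, P, k0, hΦ, -, k1⟩ := Ind.par hi (Nat.add_sub_cancel' (card_le hi)) he
  let v : Cm s.card → (H ∪ s : Finset (W → ℂ)) → ℂ := fun c g =>
    if h : g.1 ∈ s then c (σ ⟨g, h⟩) else g.1 x
  set c₀ : Cm s.card := fun i => (σ.symm i : W → ℂ) x with hc
  have k2 : Continuous fun c => (v c, P (e x)) := by
    refine (continuous_pi fun g => ?_).prodMk continuous_const
    by_cases h : g.1 ∈ s
    · simpa only [v, dif_pos h] using continuous_apply _
    · simpa only [v, dif_neg h] using continuous_const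
  have k3 : (v c₀, P (e x)) = Φ (e x) := by
    rw [hΦ, e.left_inv he.2]
    refine Prod.ext (funext fun g => ?_) rfl
    by_cases h : g.1 ∈ s
    · simp only [v, dif_pos h, hc, σ.symm_apply_apply]
    · simp only [v, dif_neg h]
  have k4 := k2.tendsto' _ _ k3
  have k5 := (Slc.tendsto_symm he).comp ((Φ.tendsto_symm k0).comp k4)
  refine k5.frequently (((mem_closure_iff_frequently.1 (h1 c₀)).and_eventually
    (k4.eventually (Φ.eventually_right_inverse' k0))).mono fun c ⟨a, b⟩ => ?_)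
  rw [hΦ] at b
  have k6 := congrFun (congrArg Prod.fst b)
  refine ⟨fun g hg => (k6 ⟨g, Finset.mem_union_left _ hg⟩).trans
    (dif_neg (Finset.disjoint_left.1 hd hg)), regS_of σ hG' hs ?_⟩
  refine (congrArg _ (funext fun i => ?_)).mpr a
  exact (k6 ⟨_, Finset.mem_union_right _ (σ.symm i).2⟩).trans
    ((dif_pos (σ.symm i).2).trans (congrArg c (σ.apply_symm_apply i)))

theorem sph_of (hgen : StGen) (hlc : StLC) : StSph := by
  intro n W _ _ _ _ _ κ _ G A V T s x₀ x₁ r₀ l hG hB hs hA h1 h2 ⟨h3, ζ, h4, h5, h6⟩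
  have op : ∀ x ∈ V, nr T x₀ x < r₀ → ∀ᶠ y in 𝓝 x, y ∈ V ∧ nr T x₀ y < r₀ := fun x a b =>
    (hB.isOpen.eventually_mem a).and ((cont_nr hB a).eventually_lt continuousAt_const b)
  obtain ⟨x₂, a1, ⟨a2, a3⟩, a4, a5⟩ := ((hG.freq {l} (by simpa using h3)).and_eventually
    ((op x₁ h1 h2).and (h4.near.and (Ind.near h6)))).exists
  have a6 : ∀ᶠ y in 𝓝 x₂, ∀ k ≠ l, y ∉ G k := eventually_all.2 fun k =>
    eventually_imp_distrib_left.2 fun hk =>
      (hG.closed' k).isOpen_compl.mem_nhds fun e => hk ((a1 k).1 e)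
  obtain ⟨x, ⟨b1, b2⟩, ⟨b3, b4⟩, b5, b6⟩ := ((hgen n W κ G V s {ζ} x₂ hG hB.isOpen hs
    (Finset.disjoint_singleton_left.2 h5) (by rwa [← Finset.insert_eq])).and_eventually
      ((op x₂ a2 a3).and (a4.1.and a6))).exists
  have b7 : x ∈ G l := b5.1 ((b1 ζ (Finset.mem_singleton_self ζ)).trans (a4.mem.2 ((a1 l).2 rfl)))
  have key : ∀ k ∈ A, (nr T x₀ '' {z | z ∈ V ∧ Fib s x z ∧ z ∈ G k}).Countable := by
    refine fun k hk => countable_image fun z ⟨c1, c2, c3⟩ => ?_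
    obtain ⟨-, η, c4, c5, c6⟩ := (b2 z c1 c2).2 k c3
    have c7 : ∀ g ∈ T, ∀ᶠ w in 𝓝 z, Fib (insert η s) z w → g w = g z := fun g hg => by
      refine hlc n W _ g z c6 (hB.hol g hg z c1) ?_
      filter_upwards [hB.isOpen.mem_nhds c1, c4.near] with w d1 d2 d3
      refine or_iff_not_imp_left.2 fun d4 d5 => ?_
      rw [Finset.mem_insert, not_or] at d4
      refine hA k hk w d1 g hg d4.2 ⟨d2.mem.1 ((d3 η (Finset.mem_insert_self _ _)).trans
        (c4.mem.2 c3)), η, d2, fun e => ?_, by rwa [Finset.insert_comm]⟩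
      exact (Finset.mem_insert.1 e).elim (fun e => d4.1 e.symm) c5
    filter_upwards [(T.eventually_all).2 c7, c4.1] with w d1 d2 ⟨_, d3, d4⟩
    refine Finset.sum_congr rfl fun g hg => ?_
    rw [d1 g hg fun f hf => ?_]
    rcases Finset.mem_insert.1 hf with rfl | hf
    · exact (d2.2 d4).trans (c4.mem.2 c3).symm
    · exact (d3 f hf).trans (c2 f hf).symm
  obtain ⟨r, c1, c2, c3⟩ := ((A.to_countable.biUnion key).dense_compl ℝ).exists_between b4
  exact ⟨x, b3, (b2 x b3 fun _ _ => rfl).2 l b7, b6, r, c2, c3.le, fun y d1 d2 d3 k hk d4 =>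
    c1 (mem_iUnion₂.2 ⟨k, hk, y, ⟨d1, d2, d4⟩, d3⟩)⟩

end Vale.Agent.P277Z.Rk
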