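import Vale.Agent.P277Z.Rk.Cnt
import Vale.Agent.P277Z.Rk.Crd
import Vale.Agent.P277Z.Rk.Crit
import Vale.Agent.P277Z.Rk.Dim
import Vale.Agent.P277Z.Rk.End2
import Vale.Agent.P277Z.Rk.EndB
import Vale.Agent.P277Z.Rk.Fib
import Vale.Agent.P277Z.Rk.Glob
import Vale.Agent.P277Z.Rk.Lb
import Vale.Agent.P277Z.Rk.Mp
import Vale.Agent.P277Z.Rk.Sph

/-!
# P277, block GLC: ranks of maps on strata, the statements without hypotheses
-/

namespace Vale.Agent.P277Z.Rk

theorem sph : StSph := sph_of gen lc

theorem fib : StFib := fib_of lc nlc mp gen sph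

theorem green : StGreen := green_of nlc mp gen sph

theorem dense : StDense := dense_of crd

theorem fibX : StFibX := fibX_of fib crd dense

theorem greenX : StGreenX := greenX_of green crd dense

theorem lb : StLb := lb_of crit

theorem cnt : StCnt := cnt_of lb greenX

theorem six : Glc.StSix :=
  six_of (EndB.cj_of fibX b2) (sec6_of cnt fibX b1 b2 EndB.rkTw) (end2_of greenX b1) EndB.rkTw b1

end Vale.Agent.P277Z.Rk
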