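import Vale.Agent.P277Z.Rk.Sk
import Vale.Agent.P277Z.Val.Fin
import Vale.Agent.P277Z.Slc.Bridge
import Vale.Agent.P277.A.Basic

/-!
# P277, block GLC: ranks of maps on strata (basic facts)
-/

open scoped Manifold ContDiff Topology Classical
open Vale.Agent.P277 hiding Amin IsFlipR
open Vale.Agent.P277.HD Vale.Agent.P277.PH
open Vale.Agent.P272.K Vale.Agent.P285.H281.FD Set Filter
open Vale.Agent.P277Z.Slc (LEq Ind dd ForW)
open Vale.Agent.P277Z.Glc (HolX HolM Mf Dat Pm Tw)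
open Vale.Agent.P277Z.Val (IsSnc)
open Submodule (span)

set_option linter.unusedSectionVars false

noncomputable section

namespace Vale.Agent.P277Z.Rk

theorem card_le_of_span {ι M : Type} [AddCommGroup M] [Module ℂ M] {v : ι → M} {A B : Finset ι}
    (h : LinearIndepOn ℂ v ↑A) (hs : ∀ a ∈ A, v a ∈ span ℂ (v '' ↑B)) : A.card ≤ B.card := by
  have h1 := linearIndependent_le_span_aux' (fun a : (↑A : Set ι) => v a) h
    (↑(B.image v) : Set M) (by
      rintro _ ⟨a, rfl⟩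
      rw [Finset.coe_image]
      exact hs a a.2)
  simp only [Finset.coe_sort_coe, Fintype.card_coe] at h1
  exact h1.trans Finset.card_image_le

section fib

variable {W : Type} {s s' T : Finset (W → ℂ)} {x y z x₀ : W}

theorem Fib.refl (s : Finset (W → ℂ)) (x : W) : Fib s x x := fun _ _ => rfl

theorem Fib.symm (h : Fib s x y) : Fib s y x := fun g hg => (h g hg).symm

theorem Fib.trans (h : Fib s x y) (h' : Fib s y z) : Fib s x z :=
  fun g hg => (h' g hg).trans (h g hg)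

theorem Fib.mono (h : Fib s x y) (hs : s' ⊆ s) : Fib s' x y := fun g hg => h g (hs hg)

theorem fib_insert {g : W → ℂ} : Fib (insert g s) x y ↔ g y = g x ∧ Fib s x y := by
  simp [Fib]

theorem nr_nonneg (T : Finset (W → ℂ)) (x₀ x : W) : 0 ≤ nr T x₀ x :=
  Finset.sum_nonneg fun _ _ => by positivity

theorem nr_self (T : Finset (W → ℂ)) (x₀ : W) : nr T x₀ x₀ = 0 := by simp [nr]

theorem nr_mono (h : s ⊆ T) (x₀ x : W) : nr s x₀ x ≤ nr T x₀ x :=
  Finset.sum_le_sum_of_subset_of_nonneg h fun _ _ _ => by positivity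

theorem nr_eq_zero : nr T x₀ x = 0 ↔ Fib T x₀ x := by
  unfold nr
  rw [Finset.sum_eq_zero_iff_of_nonneg fun _ _ => by positivity]
  simp [Fib, sub_eq_zero]

theorem Fib.nr_eq (h : Fib T x y) : nr T x₀ y = nr T x₀ x :=
  Finset.sum_congr rfl fun g hg => by rw [h g hg]

end fib

variable {n : ℕ} {W : Type} [TopologicalSpace W] [ChartedSpace (Cm n) W]
  [IsManifold 𝓘(ℂ, Cm n) ω W] {s s' b T : Finset (W → ℂ)} {x x₀ : W} {g : W → ℂ} {G V : Set W}

theorem IndS.hol (h : IndS n s x) (hg : g ∈ s) : Hol n g x := h.1 ⟨g, hg⟩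

theorem IndS.lin (h : IndS n s x) {e : Chart n W} (he : At e x) :
    LinearIndepOn ℂ (fun g => dd g e x) (↑s : Set (W → ℂ)) := h.2 e he

theorem IndS.of_chart (hh : ∀ g ∈ s, Hol n g x) {e : Chart n W} (he : At e x)
    (hi : LinearIndepOn ℂ (fun g => dd g e x) (↑s : Set (W → ℂ))) : IndS n s x :=
  Slc.Ind.of_chart (fun a => hh a a.2) he hi

theorem IndS.mono (h : IndS n s x) (hs : s' ⊆ s) : IndS n s' x :=
  ⟨fun a => h.hol (hs a.2), fun _ he => (h.lin he).mono hs⟩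

theorem IndS.near (h : IndS n s x) : ∀ᶠ y in 𝓝 x, IndS n s y := Slc.Ind.near h

theorem indS_empty (x : W) : IndS n ∅ x :=
  IndS.of_chart (by simp) (Slc.at_chartAt x) (by simp)

theorem IndS.card_le (h : IndS n s x) : s.card ≤ n := by
  have h1 := (h.2 _ (Slc.at_chartAt x)).fintype_card_le_finrank
  have h2 : Module.finrank ℂ (Cm n →L[ℂ] ℂ) = n := by
    rw [← (LinearMap.toContinuousLinearMap (𝕜 := ℂ) (E := Cm n) (F' := ℂ)).finrank_eq,
      Module.finrank_linearMap]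
    simp
  simpa [h2] using h1

theorem IndS.insert (h : IndS n s x) (hg : Hol n g x) {e : Chart n W} (he : At e x)
    (hn : dd g e x ∉ span ℂ ((fun g => dd g e x) '' ↑s)) : g ∉ s ∧ IndS n (insert g s) x := by
  have h1 : g ∉ s := fun k => hn (Submodule.subset_span ⟨g, k, rfl⟩)
  refine ⟨h1, IndS.of_chart (fun a ha => ?_) he ?_⟩
  · rcases Finset.mem_insert.1 ha with rfl | ha
    exacts [hg, h.hol ha]
  · rw [Finset.coe_insert]
    exact (linearIndepOn_insert h1).2 ⟨h.lin he, hn⟩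

theorem IndS.mem_span (h : IndS n s x) (hg : Hol n g x) (hn : g ∈ s ∨ ¬ IndS n (Insert.insert g s) x)
    {e : Chart n W} (he : At e x) : dd g e x ∈ span ℂ ((fun g => dd g e x) '' ↑s) := by
  by_contra k
  exact hn.elim (h.insert hg he k).1 fun k' => k' (h.insert hg he k).2

theorem IndS.not_mem_span (h : IndS n (Insert.insert g s) x) (hg : g ∉ s) {e : Chart n W}
    (he : At e x) : dd g e x ∉ span ℂ ((fun g => dd g e x) '' ↑s) := by
  have h1 := h.lin he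
  rw [Finset.coe_insert] at h1
  exact ((linearIndepOn_insert hg).1 h1).2

theorem IndS.ext (h : IndS n s x) (h' : IndS n s' x) (hc : s.card < s'.card) :
    ∃ g ∈ s', g ∉ s ∧ IndS n (Insert.insert g s) x := by
  by_contra k
  have he := Slc.at_chartAt (n := n) x
  refine hc.not_ge (card_le_of_span (h'.lin he) fun a ha => h.mem_span (h'.hol ha) ?_ he)
  by_contra k'
  push Not at k'
  exact k ⟨a, ha, k'⟩

/-- exchange, keeping the family `b` -/
theorem IndS.exch (h : IndS n (b ∪ s) x) (hd : Disjoint b s) (hT : ∀ g ∈ T, Hol n g x)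
    {e : Chart n W} (he : At e x) (hs : ∀ g ∈ s, dd g e x ∈ span ℂ ((fun g => dd g e x) '' ↑T)) :
    ∃ s' ⊆ T, s'.card = s.card ∧ Disjoint b s' ∧ IndS n (b ∪ s') x := by
  obtain ⟨t, ht, hm⟩ := (T.powerset.filter fun t => Disjoint b t ∧ IndS n (b ∪ t) x).exists_max_image
    Finset.card ⟨∅, by simpa using h.mono Finset.subset_union_left⟩
  simp only [Finset.mem_filter, Finset.mem_powerset] at ht hm
  have h1 : ∀ g ∈ T, dd g e x ∈ span ℂ ((fun g => dd g e x) '' ↑(b ∪ t)) := fun g hg => by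
    by_contra k
    obtain ⟨k1, k2⟩ := ht.2.2.insert (hT g hg) he k
    rw [Finset.mem_union, not_or] at k1
    have := hm (Insert.insert g t) ⟨Finset.insert_subset hg ht.1, by simp [k1.1, ht.2.1], by
      rwa [Finset.union_insert]⟩
    rw [Finset.card_insert_of_notMem k1.2] at this
    omega
  have h2 : (b ∪ s).card ≤ (b ∪ t).card := card_le_of_span (h.lin he) fun a ha => by
    rcases Finset.mem_union.1 ha with k | k
    · exact Submodule.subset_span ⟨a, by simp [k], rfl⟩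
    · exact Submodule.span_le.2 (by rintro _ ⟨g, hg, rfl⟩; exact h1 g hg) (hs a k)
  rw [Finset.card_union_of_disjoint hd, Finset.card_union_of_disjoint ht.2.1] at h2
  obtain ⟨u, hu, hc⟩ := Finset.exists_subset_card_eq (show s.card ≤ t.card by omega)
  exact ⟨u, hu.trans ht.1, hc, ht.2.1.mono_right hu,
    ht.2.2.mono (Finset.union_subset_union_right hu)⟩

theorem IndS.of_span (h : IndS n s x) (hT : ∀ g ∈ T, Hol n g x) {e : Chart n W} (he : At e x)
    (hs : ∀ g ∈ s, dd g e x ∈ span ℂ ((fun g => dd g e x) '' ↑T)) :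
    ∃ s' ⊆ T, s'.card = s.card ∧ IndS n s' x := by
  obtain ⟨t, h1, h2, -, h3⟩ := IndS.exch (b := ∅) (by simpa using h) (by simp) hT he hs
  exact ⟨t, h1, h2, by simpa using h3⟩

theorem IndG.mem (h : IndG n G s x) : x ∈ G := h.1

theorem IndG.indS (h : IndG n G s x) : IndS n s x :=
  let ⟨_, _, _, _, k⟩ := h
  k.mono (Finset.subset_insert _ _)

theorem IndG.mono (h : IndG n G s x) (hs : s' ⊆ s) : IndG n G s' x :=
  let ⟨k0, ζ, k1, k2, k3⟩ := h
  ⟨k0, ζ, k1, fun k => k2 (hs k), k3.mono (Finset.insert_subset_insert _ hs)⟩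

theorem IndG.near (h : IndG n G s x) : ∀ᶠ y in 𝓝 x, y ∈ G → IndG n G s y := by
  obtain ⟨-, ζ, k1, k2, k3⟩ := h
  filter_upwards [k1.near, k3.near] with y a b c using ⟨c, ζ, a, k2, b⟩

theorem IndG.card_lt (h : IndG n G s x) : s.card + 1 ≤ n := by
  obtain ⟨-, ζ, -, k2, k3⟩ := h
  rw [← Finset.card_insert_of_notMem k2]
  exact k3.card_le

theorem IndG.of_span (h : IndG n G s x) (hT : ∀ g ∈ T, Hol n g x) {e : Chart n W} (he : At e x)
    (hs : ∀ g ∈ s, dd g e x ∈ span ℂ ((fun g => dd g e x) '' ↑T)) :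
    ∃ s' ⊆ T, s'.card = s.card ∧ IndG n G s' x := by
  obtain ⟨k0, ζ, k1, k2, k3⟩ := h
  obtain ⟨t, h1, h2, h3, h4⟩ := IndS.exch (b := {ζ}) (s := s) k3 (by simpa using k2) hT he hs
  exact ⟨t, h1, h2, k0, ζ, k1, by simpa using h3, h4⟩

theorem indG_empty {ζ : W → ℂ} (h : LEq n G x ζ) (hx : x ∈ G) : IndG n G ∅ x := by
  have he := Slc.at_chartAt (n := n) x
  refine ⟨hx, ζ, h, by simp, ((indS_empty x).insert h.hol he ?_).2⟩
  simpa [dd] using (h.2 _ he).2 (h.mem.2 hx)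

/-! ### simple normal crossings -/

section snc

variable {κ : Type} [Finite κ] {G : κ → Set W}

theorem ex_leq (h : IsSnc n G) (x : W) : ∃ ζ : κ → W → ℂ, ∀ l, LEq n (G l) x (ζ l) :=
  let ⟨ζ, k, _⟩ := Slc.snc_of_isSnc h x
  ⟨ζ, k⟩

theorem indG_empty' (h : IsSnc n G) {l : κ} (hx : x ∈ G l) : IndG n (G l) ∅ x :=
  let ⟨_, k⟩ := ex_leq h x
  indG_empty (k l) hx

theorem freq_gen (h : IsSnc n G) {l : κ} (hx : x ∈ G l) :
    ∃ᶠ y in 𝓝 x, y ∈ G l ∧ ∀ k ≠ l, y ∉ G k :=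
  (h.freq {l} (by simpa using hx)).mono fun y hy =>
    ⟨(hy l).2 rfl, fun k hk k' => hk ((hy k).1 k')⟩

theorem dense_off (h : IsSnc n G) (x : W) : ∃ᶠ y in 𝓝 x, y ∉ ⋃ l, G l :=
  (h.freq ∅ (by simp)).mono fun y hy => by simpa using hy

theorem ev_off (h : IsSnc n G) (x : W) : ∀ᶠ y in 𝓝 x, ∀ k, x ∉ G k → y ∉ G k :=
  eventually_all.2 fun k => by
    by_cases hk : x ∈ G k
    · exact .of_forall fun _ k' => absurd hk k'
    · exact ((h.closed' k).isOpen_compl.eventually_mem hk).mono fun _ a _ => a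

end snc

/-! ### the norm -/

theorem contAt_nr (h : ∀ g ∈ T, Hol n g x) : ContinuousAt (nr T x₀) x :=
  tendsto_finsetSum _ fun g hg => (((h g hg).continuousAt.sub continuousAt_const).norm.pow 2)

theorem contOn_nr (h : ∀ g ∈ T, ∀ x ∈ V, Hol n g x) : ContinuousOn (nr T x₀) V :=
  fun x hx => (contAt_nr fun g hg => h g hg x hx).continuousWithinAt

/-- closed subsets of the compact set -/
theorem Box.cpt' {r₀ : ℝ} (h : Box n V T x₀ r₀) {S : Set ℝ} (hS : IsClosed S) (hr : S ⊆ Iic r₀) :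
    IsCompact {x | x ∈ V ∧ nr T x₀ x ∈ S} := by
  have h2 : ContinuousOn (nr T x₀) {x | x ∈ V ∧ nr T x₀ x ≤ r₀} :=
    (contOn_nr h.hol).mono fun _ k => k.1
  obtain ⟨u, hu, e⟩ := continuousOn_iff_isClosed.1 h2 S hS
  have e' : {x | x ∈ V ∧ nr T x₀ x ∈ S} = {x | x ∈ V ∧ nr T x₀ x ≤ r₀} ∩ u := by
    rw [inter_comm, ← e]
    exact Set.ext fun x => ⟨fun k => ⟨k.2, k.1, hr k.2⟩, fun k => ⟨k.2.1, k.1⟩⟩
  rw [e']
  exact h.cpt.inter_right hu

/-- the open set may be replaced by the open ball -/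
theorem Box.shrink {r₀ r₁ : ℝ} (h : Box n V T x₀ r₀) (h0 : 0 < r₁) (h1 : r₁ < r₀) :
    Box n {x | x ∈ V ∧ nr T x₀ x < r₀} T x₀ r₁ where
  isOpen := (contOn_nr h.hol).isOpen_inter_preimage h.isOpen isOpen_Iio
  hol g hg x hx := h.hol g hg x hx.1
  mem := ⟨h.mem, by rw [nr_self]; exact h.pos⟩
  pos := h0
  cpt := by
    have e : {x | x ∈ {x | x ∈ V ∧ nr T x₀ x < r₀} ∧ nr T x₀ x ≤ r₁} =
        {x | x ∈ V ∧ nr T x₀ x ∈ Iic r₁} :=
      Set.ext fun x => ⟨fun k => ⟨k.1.1, k.2⟩, fun k => ⟨⟨k.1, lt_of_le_of_lt k.2 h1⟩, k.2⟩⟩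
    rw [e]
    exact h.cpt' isClosed_Iic (Iic_subset_Iic.2 h1.le)

/-! ### maps to complex spaces -/

variable {X : CSp} {p : W → X.pt} {m m' : ℕ}

theorem Fn.hol (hp : HolX n X p) (h : g ∈ Fn X p x) : Hol n g x := by
  obtain ⟨φ, h1, h2⟩ := h
  exact fun e he => (hp.2 x φ h1 e he).congr ((Slc.tendsto_symm he).eventually h2.symm)

theorem Fn.near (hp : Continuous p) (h : g ∈ Fn X p x) : ∀ᶠ y in 𝓝 x, g ∈ Fn X p y := by
  obtain ⟨φ, h1, h2⟩ := h
  filter_upwards [hp.continuousAt.eventually (hol_eventually h1), h2.eventually_nhds] with y a b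
    using ⟨φ, a, b⟩

theorem fn_near (hp : Continuous p) (h : ↑s ⊆ Fn X p x) : ∀ᶠ y in 𝓝 x, ↑s ⊆ Fn X p y :=
  (s.eventually_all.2 fun _ hg => Fn.near hp (h hg)).mono fun _ k g hg => k g hg

theorem RkAt.near (hp : Continuous p) (h : RkAt n X p m x) : ∀ᶠ y in 𝓝 x, RkAt n X p m y := by
  obtain ⟨s, h1, h2, h3⟩ := h
  filter_upwards [fn_near hp h1, h3.near] with y a b using ⟨s, a, h2, b⟩

theorem RkGAt.near (hp : Continuous p) (h : RkGAt n X p G m x) :
    ∀ᶠ y in 𝓝 x, y ∈ G → RkGAt n X p G m y := by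
  obtain ⟨s, h1, h2, h3⟩ := h
  filter_upwards [fn_near hp h1, h3.near] with y a b c using ⟨s, a, h2, b c⟩

theorem RkAt.mono (h : RkAt n X p m x) (hm : m' ≤ m) : RkAt n X p m' x := by
  obtain ⟨s, h1, h2, h3⟩ := h
  obtain ⟨t, k1, k2⟩ := Finset.exists_subset_card_eq (h2 ▸ hm : m' ≤ s.card)
  exact ⟨t, (Finset.coe_subset.2 k1).trans h1, k2, h3.mono k1⟩

theorem RkGAt.mono (h : RkGAt n X p G m x) (hm : m' ≤ m) : RkGAt n X p G m' x := by
  obtain ⟨s, h1, h2, h3⟩ := h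
  obtain ⟨t, k1, k2⟩ := Finset.exists_subset_card_eq (h2 ▸ hm : m' ≤ s.card)
  exact ⟨t, (Finset.coe_subset.2 k1).trans h1, k2, h3.mono k1⟩

theorem RkT.mono (h : RkT n X p m) (hm : m' ≤ m) : RkT n X p m' := h.imp fun _ k => k.mono hm

theorem RkG.mono (h : RkG n X p G m) (hm : m' ≤ m) : RkG n X p G m' := h.imp fun _ k => k.mono hm

theorem RkT.le (h : RkT n X p m) : m ≤ n :=
  let ⟨_, _, _, k1, k2⟩ := h
  k1 ▸ k2.card_le

theorem RkG.lt (h : RkG n X p G m) : m + 1 ≤ n :=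
  let ⟨_, _, _, k1, k2⟩ := h
  k1 ▸ k2.card_lt

theorem RkAt.of_sub {X' : CSp} {p' : W → X'.pt} (h : RkAt n X p m x) (e : Fn X p x ⊆ Fn X' p' x) :
    RkAt n X' p' m x :=
  let ⟨s, h1, h2⟩ := h
  ⟨s, h1.trans e, h2⟩

theorem RkGAt.of_sub {X' : CSp} {p' : W → X'.pt} (h : RkGAt n X p G m x)
    (e : Fn X p x ⊆ Fn X' p' x) : RkGAt n X' p' G m x :=
  let ⟨s, h1, h2⟩ := h
  ⟨s, h1.trans e, h2⟩

/-- the rank on a component is attained at a general point -/
theorem RkG.gen {κ : Type} [Finite κ] {G : κ → Set W} (hG : IsSnc n G) (hp : Continuous p) {l : κ}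
    (h : RkG n X p (G l) m) : ∃ y, RkGAt n X p (G l) m y ∧ y ∈ G l ∧ ∀ k ≠ l, y ∉ G k := by
  obtain ⟨x, hx⟩ := h
  obtain ⟨_, _, _, k⟩ := id hx
  obtain ⟨y, a, b⟩ := ((freq_gen hG k.mem).and_eventually (hx.near hp)).exists
  exact ⟨y, b a.1, a⟩

/-- the rank is attained outside the components -/
theorem RkT.off {κ : Type} [Finite κ] {G : κ → Set W} (hG : IsSnc n G) (hp : Continuous p)
    (h : RkT n X p m) : ∃ y, RkAt n X p m y ∧ y ∉ ⋃ l, G l := by
  obtain ⟨x, hx⟩ := h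
  obtain ⟨y, a, b⟩ := ((dense_off hG x).and_eventually (hx.near hp)).exists
  exact ⟨y, b, a⟩

end Vale.Agent.P277Z.Rk
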