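import Vale.Agent.P277Z.Rk.Sk
import Vale.Agent.P277Z.Glc.Api
import Vale.Agent.P277.H29.PH.Final
import Vale.Agent.P277.H619.T3.Met

/-!
# P277, block GLC: the number of independent contracted divisors is bounded
-/

open scoped Manifold ContDiff Topology Classical
open Vale.Agent.P277 hiding Amin IsFlipR
open Vale.Agent.P277.PH
open Vale.Agent.P272.K Vale.Agent.P285.H281.FD Set Filter

noncomputable section

namespace Vale.Agent.P277Z.Rk

namespace Cnt

variable {W : Type} [TopologicalSpace W] {n : ℕ} [ChartedSpace (Cm n) W]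

theorem ph_log {h : W → ℂ} {y : W} (hh : HolF n h y) (h0 : h y ≠ 0) :
    PHAt n (fun y => Real.log (‖h y‖ ^ 2)) y := by
  refine ⟨fun y' => 2 * Complex.log (h y' / h y) + (Real.log (‖h y‖ ^ 2) : ℂ), fun e he =>
    (analyticAt_const.mul ((hh e he).div_const.clog (by
      rw [e.left_inv he.2, div_self h0]
      exact Complex.one_mem_slitPlane))).add analyticAt_const, ?_⟩
  filter_upwards [Glc.holF_ne hh h0] with y' h1
  rw [Complex.add_re, Complex.ofReal_re, Complex.mul_re]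
  simp only [Complex.re_ofNat, Complex.im_ofNat, zero_mul, sub_zero, Complex.log_re, norm_div]
  rw [Real.log_pow, Real.log_pow, Real.log_div (norm_ne_zero_iff.2 h1) (norm_ne_zero_iff.2 h0)]
  push_cast
  ring

theorem indG_mono {G : Set W} {s s' : Finset (W → ℂ)} {x : W} (h : IndG n G s x) (e : s' ⊆ s) :
    IndG n G s' x := by
  obtain ⟨a, ζ, b, c, d⟩ := h
  exact ⟨a, ζ, b, mt (@e ζ) c, d.comp
    (fun g : (insert ζ s' : Finset _) => ⟨g.1, Finset.insert_subset_insert ζ e g.2⟩)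
    fun _ _ k => Subtype.ext (Subtype.mk.inj k)⟩

theorem log_mul {a b : ℂ} (ha : a ≠ 0) (hb : b ≠ 0) :
    Real.log (‖a * b‖ ^ 2) = Real.log (‖a‖ ^ 2) + Real.log (‖b‖ ^ 2) := by
  rw [norm_mul, mul_pow, Real.log_mul (by positivity) (by positivity)]

theorem log_prod {r : ℕ} {a : Fin r → ℂ} (ha : ∀ l, a l ≠ 0) (m : Fin r → ℕ) :
    Real.log (‖∏ l, a l ^ (m l : ℤ)‖ ^ 2) = ∑ l, 2 * m l * Real.log ‖a l‖ := by
  simp only [zpow_natCast, norm_prod, norm_pow, Real.log_pow, Nat.cast_ofNat, mul_assoc]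
  rw [Real.log_prod fun l _ => pow_ne_zero _ (norm_ne_zero_iff.2 (ha l)), Finset.mul_sum]
  simp only [Real.log_pow]

end Cnt

open Cnt

/-- (CNT) -/
theorem cnt_of (hL : StLb) (hG : StGreenX) : StCnt := by
  intro k W hk
  obtain ⟨h, hh⟩ := stPH (k + 2) W.T
  refine ⟨h, fun W' π X p m Q hB hp hr hQ => not_lt.1 fun hN => ?_⟩
  let q : Fin Q.card → Q := Q.equivFin.symm
  choose L s μ l1 l2 l3 l4 l5 l6 using fun a => hL k W' W π (q a) hk hB (hQ _ (q a).2).1
  choose ψ hψ using fun a => T3.exists_isMet (l1 a)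
  obtain ⟨t, φ, t0, -, hP⟩ := hh _ hN (fun a => (L a).ι) (fun a => (L a).U) ψ
    (fun a => (l1 a).isOpen) (fun a => (l1 a).cover)
    (fun a i x hx e he => (hψ a).smooth i e x he hx) fun a i j x hx => by
      refine (ph_log (fun e he => ((l1 a).holo i j e x he hx.1 hx.2).analyticAt)
        ((l1 a).ne_zero i j x hx.1 hx.2)).congr ?_
      filter_upwards [((l1 a).isOpen i).mem_nhds hx.1, ((l1 a).isOpen j).mem_nhds hx.2] with y b c
      rw [(hψ a).change i j y b c, add_sub_cancel_left]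
  choose i hi using fun a => (l1 a).cover
  have hg : Green (k + 2) W'.G (p ⁻¹' univ ∩ p ⁻¹' univ) (fun l => ∑ a, t a * (2 * μ a l))
      fun y => ∑ a, t a * (Real.log (‖s a (i a (π y)) (π y)‖ ^ 2) - ψ a (i a (π y)) (π y)) -
        φ (π y) := by
    intro y _
    obtain ⟨ζ, hζ⟩ := W'.exEq y
    choose v v1 v2 v3 using fun a => (l3 a y _ (hi a _)).any hζ
    choose F f1 f2 using fun a => ph_log (v1 a) (v2 a)
    obtain ⟨F₀, g1, g2⟩ := hP (fun a => i a (π y)) (π y) fun a => hi a _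
    have hc := hB.hol.1.continuousAt (x := y)
    refine ⟨ζ, fun x => ∑ a, t a * F a x - F₀ (π x), hζ,
      HolF.sub (HolF.sum fun a _ => (f1 a).const_mul _) (hB.hol.2 y _ g1), ?_⟩
    filter_upwards [eventually_all.2 v3, eventually_all.2 f2, hc.eventually g2, Glc.leq_ne hζ,
      eventually_all.2 fun a => Glc.holF_ne (v1 a) (v2 a), eventually_all.2 fun a =>
        hc.eventually (((l1 a).isOpen _).mem_nhds (hi a (π y)))] with x a1 a2 a3 a4 a5 a6 a7
    have b : ∀ a, Real.log (‖s a (i a (π x)) (π x)‖ ^ 2) - ψ a (i a (π x)) (π x) =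
        (F a x).re + ∑ l, 2 * μ a l * Real.log ‖ζ l x‖ - ψ a (i a (π y)) (π x) := fun a => by
      have c : ∏ l, ζ l x ^ (μ a l : ℤ) ≠ 0 :=
        Finset.prod_ne_zero_iff.2 fun l _ => zpow_ne_zero _ (a4 a7 l)
      rw [(l2 a).change _ _ _ (hi a _) (a6 a), (hψ a).change _ _ _ (hi a _) (a6 a), a1 a a7,
        log_mul ((l1 a).ne_zero _ _ _ (hi a _) (a6 a)) (mul_ne_zero (a5 a) c), log_mul (a5 a) c,
        log_prod (a4 a7), a2 a]
      ring
    simp only [b, Complex.sub_re, Complex.re_sum, Complex.re_ofReal_mul, ← a3, mul_sub, mul_add,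
      Finset.sum_sub_distrib, Finset.sum_add_distrib, Finset.mul_sum, Finset.sum_mul, mul_assoc]
    rw [Finset.sum_comm (s := Finset.univ) (t := Finset.univ)
      (f := fun a l => t a * (2 * (μ a l * Real.log ‖ζ l x‖)))]
    ring
  refine t0 (funext fun a => ?_)
  obtain ⟨x₀, hx⟩ := (W'.connG (q a)).nonempty
  have h1 := hG _ W' X X p p univ univ _ _ m x₀ (q a) hp hp isOpen_univ isOpen_univ hg hr
    (fun l hl y S hS hI => not_lt.1 fun c => by
      obtain ⟨b, -, hb⟩ := Finset.exists_ne_zero_of_sum_ne_zero hl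
      obtain ⟨S', d, e⟩ := Finset.exists_subset_card_eq (s := S) (n := m + 1) c
      exact (hQ _ (q b).2).2 l (l6 b l fun e => hb (by simp [e])) ⟨y, S',
        (Finset.coe_subset.2 d).trans (hS.trans (union_self _).le), e, indG_mono hI d⟩)
    trivial trivial hx
  rw [Finset.sum_eq_single a (fun b _ hb => by
    rw [l5 b (q a) (fun e => hb (Q.equivFin.symm.injective (Subtype.ext e)).symm)
      (hQ _ (q a).2).1]
    simp) (by simp)] at h1
  simpa [l4 a] using h1

end Vale.Agent.P277Z.Rk
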