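import Vale.Agent.P277Z.Rk.End2
import Vale.Agent.P277Z.Glc.Pre
import Vale.Agent.P277Z.Glc.Lift1

/-!
# P277, block GLC: ranks in towers of models, the codimension of the flipped locus
-/

set_option linter.unusedSectionVars false
set_option linter.unusedVariables false

open scoped Manifold ContDiff Topology Classical
open Vale.Agent.P277 hiding Amin IsFlipR
open Vale.Agent.P277.HD
open Vale.Agent.P272.K Vale.Agent.P285.H281.FD Set Filter
open Vale.Agent.P277Z.Slc (LEq Ind dd at_chartAt tendsto_symm dd_congr ind_iff_surj)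
open Vale.Agent.P277Z.Glc (HolX HolM Mf Dat Pm)

noncomputable section

namespace Vale.Agent.P277Z.Rk

section bm

variable {d : ℕ} {W'' W' W : Mf d} {π : W'.T → W.T} {σ : W''.T → W'.T} {y : W'.T}

theorem bm_of_md (h : Glc.Md W' W) : Bm W' W h.π where
  hol := h.hol
  surj := h.surj
  pre _ k := by_contra fun k' => h.offU k' k
  inj := h.inj₀
  det y hy e' e he' he := ((h.jac y e' e he' he).off hy).2

theorem Bm.et (h : Bm W' W π) (hy : y ∉ ⋃ l, W'.G l) : Et π y := h.det y hy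

theorem dd_pull (h : HolM d d π) {g : W.T → ℂ} (hg : Hol d g (π y)) {e' : Chart d W'.T}
    {e : Chart d W.T} (he' : At e' y) (he : At e (π y)) : dd (g ∘ π) e' y =
      (dd g e (π y)).comp (fderiv ℂ (fun z => e (π (e'.symm z))) (e' y)) := by
  have h1 : DifferentiableAt ℂ (fun z => g (e.symm z)) (e (π (e'.symm (e' y)))) := by
    rw [e'.left_inv he'.2]; exact (hg e he).differentiableAt
  have h2 := fderiv_fun_comp (e' y) h1 (h.an he' he).differentiableAt
  rw [e'.left_inv he'.2] at h2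
  refine (EventuallyEq.fderiv_eq ?_).trans h2
  filter_upwards [(tendsto_symm he').eventually
    (h.1.continuousAt.eventually (e.eventually_left_inverse he.2))] with z hz
  exact congrArg g hz.symm

theorem rkAt_of_ind {X : CSp} {p : W.T → X.pt} {x : W.T} {α : Type} [Fintype α] {f : α → W.T → ℂ}
    (h : Ind d f x) (hf : ∀ a, f a ∈ Fn X p x) : RkAt d X p (Fintype.card α) x := by
  have he := at_chartAt (n := d) x
  have hi : Function.Injective f := fun a b k => (h.2 _ he).injective (by simp only [k])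
  refine ⟨Finset.univ.image f, by simpa [range_subset_iff] using hf,
    Finset.card_image_of_injective _ hi, IndS.of_chart (by simpa using h.1) he ?_⟩
  rw [Finset.coe_image]
  exact LinearIndepOn.image_of_comp _ _ ((h.2 _ he).linearIndepOn _)

variable {X : CSp} {p : W.T → X.pt} {m : ℕ}

theorem Fn.pull (h : Continuous π) {g : W.T → ℂ} (hg : g ∈ Fn X p (π y)) :
    g ∘ π ∈ Fn X (p ∘ π) y :=
  let ⟨φ, h1, h2⟩ := hg
  ⟨φ, h1, h.continuousAt.eventually h2⟩

/-- the rank of a pull back is not larger -/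
theorem RkAt.of_pull (h : HolM d d π) (hp : HolX d X p) (k : RkAt d X (p ∘ π) m y) :
    RkAt d X p m (π y) := by
  obtain ⟨s, h1, rfl, h2⟩ := k
  choose φ k1 k2 using fun g : s => h1 g.2
  have he' := at_chartAt (n := d) y
  have he := at_chartAt (n := d) (π y)
  rw [← Fintype.card_coe]
  have h3 := h2.2 _ he'
  simp only [fun g => (dd_congr (k2 g) he').trans (dd_pull h (hp.2 _ _ (k1 g)) he' he)] at h3
  exact rkAt_of_ind (f := fun g => φ g ∘ p) (Ind.of_chart (fun g => hp.2 _ _ (k1 g)) he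
    ((ind_iff_surj _).2 fun u => let ⟨v, hv⟩ := (ind_iff_surj _).1 h3 u; ⟨_, hv⟩))
    fun g => ⟨_, k1 g, EventuallyEq.rfl⟩

theorem Ind.pull (h : HolM d d π) (hy : Et π y) {α : Type} [Fintype α] {f : α → W.T → ℂ}
    (k : Ind d f (π y)) : Ind d (fun a => f a ∘ π) y := by
  have he := at_chartAt (n := d) (π y)
  refine ⟨fun g => h.2 _ _ (k.1 g), fun e' he' => ?_⟩
  simp only [fun g => dd_pull h (k.1 g) he' he]
  exact (ind_iff_surj _).2 (((ind_iff_surj _).1 (k.2 _ he)).comp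
    (ContinuousLinearMap.toContinuousLinearEquivOfDetNeZero _ (hy e' _ he' he)).surjective)

theorem RkAt.pull (h : HolM d d π) (hy : Et π y) (k : RkAt d X p m (π y)) :
    RkAt d X (p ∘ π) m y := by
  obtain ⟨s, h1, rfl, h2⟩ := k
  rw [← Fintype.card_coe]
  exact rkAt_of_ind (Ind.pull h hy h2) fun g => Fn.pull h.1 (h1 g.2)

theorem rkAt_pull (h : HolM d d π) (hp : HolX d X p) (hy : Et π y) :
    RkAt d X (p ∘ π) m y ↔ RkAt d X p m (π y) := ⟨RkAt.of_pull h hp, RkAt.pull h hy⟩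

theorem rkT_pull (h : Bm W' W π) (hp : HolX d X p) : RkT d X (p ∘ π) m ↔ RkT d X p m := by
  refine ⟨fun ⟨y, k⟩ => ⟨_, k.of_pull h.hol hp⟩, fun ⟨x, k⟩ => ?_⟩
  obtain ⟨y, rfl⟩ := h.surj x
  obtain ⟨z, a, b⟩ := ((dense_off W'.snc y).and_eventually
    (h.hol.1.continuousAt.eventually (k.near hp.1))).exists
  exact ⟨z, b.pull h.hol (h.et a)⟩

end bm

theorem fn_comp {W : Type} [TopologicalSpace W] {X Z : CSp} {f : X.pt → Z.pt} {p : W → X.pt} {y : W}
    (h : HolMap X Z f (p y)) : Fn Z (f ∘ p) y ⊆ Fn X p y :=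
  fun _ ⟨φ, h1, h2⟩ => ⟨φ ∘ f, h.2 φ h1, h2⟩

theorem fn_small {W : Type} [TopologicalSpace W] {X Z : CSp} {f : X.pt → Z.pt} {A : Set Z.pt}
    (h : IsSmall X Z f A) {p : W → X.pt} (hp : Continuous p) {y : W} (hy : f (p y) ∉ A) :
    Fn X p y = Fn Z (f ∘ p) y := by
  refine Subset.antisymm (fun g ⟨φ, h1, h2⟩ => ?_) (fn_comp (h.holMap _))
  obtain ⟨ψ, h3, h4⟩ := h.iso _ φ hy h1
  exact ⟨ψ, h3, h2.trans (hp.continuousAt.eventually h4)⟩

variable {D : Dat} {N d j : ℕ} (W : Pm D N d)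

theorem fn_eq (hj : j < N) {y : W.T} (hy : ¬ D.Fl j (W.p j y)) :
    Fn _ (W.p j) y = Fn _ (W.p (j + 1)) y := by
  have h := Glc.flipR_amin (D.S.flip j) (D.S.hc j)
  rw [fn_small h.small (W.hol j hj.le).1 hy,
    fn_small h.small' (W.hol _ hj).1 (by rwa [W.comm j hj])]
  exact congrArg (Fn _ · y) (funext fun x => (W.comm j hj x).symm)

theorem ex_over (hj : j < N) {y : W.T} (hy : D.Fl j (W.p j y)) :
    ∃ l, y ∈ W.G l ∧ ∀ x ∈ W.G l, D.Fl j (W.p j x) :=
  let ⟨l, h1, h2⟩ := W.strict j hj y hy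
  ⟨l, h1, over_of_ne W hj h2.ne⟩

theorem not_fl_off (hj : j < N) {y : W.T} (hy : y ∉ ⋃ l, W.G l) : ¬ D.Fl j (W.p j y) := fun h =>
  let ⟨l, h1, _⟩ := W.strict j hj y h
  hy (mem_iUnion.2 ⟨l, h1⟩)

theorem fl_of_succ (hj : j < N) {y y' : W.T} (e : W.p (j + 1) y = W.p (j + 1) y')
    (hy : D.Fl j (W.p j y')) : D.Fl j (W.p j y) := by
  rwa [Dat.Fl, ← W.comm j hj, e, W.comm j hj]

theorem rkTw : StRkTw := by
  refine ⟨fun D N' N d W' W h j m hj => ?_, fun D N d W j m hj => ?_⟩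
  · rw [← rkT_pull (bm_of_md h.toMd) (W.hol j hj)]
    exact iff_of_eq (congrArg (RkT d _ · m) (funext fun y => (h.hp j hj y).symm))
  · induction j with
    | zero => rfl
    | succ j ih =>
      rw [← ih (by omega)]
      refine ⟨fun k => ?_, fun k => ?_⟩
      · obtain ⟨y, a, b⟩ := k.off W.snc (W.hol _ hj).1
        exact ⟨y, a.of_sub (fn_eq W hj (not_fl_off W hj b)).ge⟩
      · obtain ⟨y, a, b⟩ := k.off W.snc (W.hol j (by omega)).1
        exact ⟨y, a.of_sub (fn_eq W hj (not_fl_off W hj b)).le⟩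

theorem rkTw_of (_ : StDense) : StRkTw := rkTw

theorem cj_of (hF : StFibX) (hB : StB2) : StCj := by
  intro D j d W Y q g hd hq hg e hr H
  have hj := j.lt_succ_self
  have hp := W.hol (j + 1) le_rfl
  have key : ∀ v, ¬ RkT (d + 1) _ (W.p (j + 1)) (v + 2) → ∀ l, (∀ y ∈ W.G l, D.Fl j (W.p j y)) →
      ¬ RkG (d + 1) _ (W.p (j + 1)) (W.G l) v := fun v h l hl ⟨x, hx⟩ => by
    obtain ⟨k, a, y, -, b⟩ := hF d W.toMf _ Y _ q univ {l | ∀ y ∈ W.G l, D.Fl j (W.p j y)} v x l hp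
      hq isOpen_univ (fun x => (funext e).subst (motive := fun p => Fn _ p x ⊆ _) (fn_comp (hg _)))
      (fun x y _ _ c ⟨k, c1, c2⟩ => (ex_over W hj (fl_of_succ W hj c (c1 x c2))).imp
        fun _ => And.symm) hr h trivial hl hx
    exact H k a ⟨y, b⟩
  refine ⟨fun h => eq_empty_of_forall_notMem ?_, fun m h => ?_⟩
  · rintro _ ⟨y, hy, -⟩
    obtain ⟨l, a, b⟩ := ex_over W hj hy
    exact key 0 h l b ⟨y, ∅, by simp, rfl, indG_empty' W.snc a⟩
  · have : Nonempty (D.S.X (j + 1)).pt := ⟨W.p _ (Classical.arbitrary _)⟩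
    refine (dimLe_biUnion (to_countable {l | ∀ y ∈ W.G l, D.Fl j (W.p j y)}) fun l hl =>
      hB (d + 1) W.toMf _ _ m l (by omega) hp (key (m + 1) h l hl)).mono ?_
    rintro _ ⟨y, hy, rfl⟩
    obtain ⟨l, a, b⟩ := ex_over W hj hy
    exact mem_biUnion b (mem_image_of_mem _ a)

end Vale.Agent.P277Z.Rk
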