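import Vale.Agent.P277Z.Rk.Api
import Vale.Agent.P277Z.Rk.Dim
import Vale.Agent.P277Z.Glc.Num
import Vale.Agent.P277Z.Glc.Hit

/-!
# P277, block GLC: the rank count, and section 6
-/

set_option linter.unusedSectionVars false

open scoped Manifold ContDiff Topology Classical
open Vale.Agent.P277 hiding Amin IsFlipR
open Vale.Agent.P277.PH
open Vale.Agent.P272.K Vale.Agent.P285.H281.FD Set Filter
open Vale.Agent.P277Z.Slc (LEq Ind dd ind_iff_surj)
open Vale.Agent.P277Z.Glc (HolX HolM Mf Dat Pm Tw Tws Md)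
open Vale.Agent.P277.H60.Z (XH)

noncomputable section

namespace Vale.Agent.P277Z.Rk

namespace SixH

section bm

variable {d : ℕ} {W'' W' W : Mf d}

theorem an_loc {d d' : ℕ} {T : Mf d} {W : Mf d'} {ι : T.T → W.T} (h : HolM d d' ι) {y : T.T}
    {e : Chart d T.T} {e' : Chart d' W.T} (he : At e y) (he' : At e' (ι y)) :
    AnalyticAt ℂ (fun z => e' (ι (e.symm z))) (e y) :=
  analyticAt_pi_iff.2 fun i => h.2 y _ (Val.holF_chart he' i) e he

theorem bm_md (h : Md W' W) : Bm W' W h.π where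
  hol := h.hol
  surj := h.surj
  pre _ hy := by_contra fun a => h.offU a hy
  inj := h.inj₀
  det y hy e' e he' he := ((h.jac y e' e he' he).off hy).2

theorem bm_id (W : Mf d) : Bm W W fun y => y where
  hol := ⟨continuous_id, fun _ _ h => h⟩
  surj := Function.surjective_id
  pre _ h := h
  inj _ _ _ h := h
  det _ _ _ _ he' he := ((Val.crd_chart he').chg (Val.crd_chart he)).2

theorem bm_comp {σ : W''.T → W'.T} {π : W'.T → W.T} (h' : Bm W'' W' σ) (h : Bm W' W π) :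
    Bm W'' W fun y => π (σ y) where
  hol := ⟨h.hol.1.comp h'.hol.1, fun y g hg => h'.hol.2 y _ (h.hol.2 _ g hg)⟩
  surj := h.surj.comp h'.surj
  pre y hy := h'.pre y (h.pre _ hy)
  inj y hy y' e := h'.inj y hy y' (h.inj _ (fun a => hy (h'.pre y a)) _ e)
  det y hy e'' e he'' he := by
    have he' := at_chartAt (n := d) (σ y)
    set e' := chartAt (Cm d) (σ y)
    have h1 : Val.LocIso (fun z => e (π (e'.symm z))) (e' (σ (e''.symm (e'' y)))) := by
      rw [e''.left_inv he''.2]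
      exact ⟨an_loc h.hol he' he, h.det _ (fun a => hy (h'.pre y a)) _ _ he' he⟩
    refine ((h1.comp (θ := fun z => e' (σ (e''.symm z)))
      ⟨an_loc h'.hol he'' he', h'.det y hy _ _ he'' he'⟩).congr ?_).2
    filter_upwards [((h'.hol.1.tendsto y).comp (Slc.tendsto_symm he'')).eventually
      (e'.open_source.mem_nhds he'.2)] with z hz
    exact congrArg (fun x => e (π x)) (e'.left_inv hz)

/-- an immersion has full rank -/
theorem rkAt_imm {d d' : ℕ} {T : Mf d} {W : Mf d'} {ι : T.T → W.T} (h : HolM d d' ι) {Y : CSp}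
    {q : T.T → Y.pt} {y : T.T} (hi : Function.Injective (fderiv ℂ (fun z => chartAt (Cm d') (ι y)
      (ι ((chartAt (Cm d) y).symm z))) (chartAt (Cm d) y y)))
    (hq : ∀ a, HolF d' a (ι y) → (fun x => a (ι x)) ∈ Fn Y q y) : RkAt d Y q d y := by
  have he := at_chartAt (n := d) y
  have he' := at_chartAt (n := d') (ι y)
  obtain ⟨L, hL⟩ := Val.Big.left_inv hi
  have h1 : ∀ i, HolF d' (fun x => L (chartAt (Cm d') (ι y) x) i) (ι y) := fun i =>
    (Val.crd_chart he').holF (g := fun z => L z i) (analyticAt_pi_iff.1 (L.analyticAt _) i)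
  have h2 := L.hasFDerivAt.comp _ (an_loc h he he').differentiableAt.hasFDerivAt
  have h3 : Ind d (fun i x => L (chartAt (Cm d') (ι y) (ι x)) i) y :=
    Ind.of_chart (fun i => h.2 y _ (h1 i)) he ((ind_iff_surj _).2 fun v => ⟨v, funext fun i =>
      (DFunLike.congr_fun (hasFDerivAt_pi'.1 h2 i).fderiv v).trans (congrFun (hL v) i)⟩)
  refine ⟨Finset.univ.image _, fun a ha => ?_, (Finset.card_image_of_injective _
    (DimH.ind_inj h3)).trans (Finset.card_fin d), DimH.indS_of h3 fun a ha => ?_⟩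
  · obtain ⟨i, -, rfl⟩ := Finset.mem_image.1 ha
    exact hq _ (h1 i)
  · exact (Finset.mem_image.1 ha).imp fun _ a => a.2

theorem rkT_bm {π : W'.T → W.T} (h : Bm W' W π) : RkT d (XH d W.T) π d := by
  obtain ⟨y₀⟩ : Nonempty W'.T := inferInstance
  obtain ⟨y, hy⟩ := (W'.freqU y₀).exists
  exact ⟨y, rkAt_imm h.hol (Val.LocIso.inj ⟨an_loc h.hol (at_chartAt _) (at_chartAt _),
    h.det y hy _ _ (at_chartAt _) (at_chartAt _)⟩) fun a ha => ⟨a, ha, EventuallyEq.rfl⟩⟩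

end bm

variable {D : Dat} {N d : ℕ}

/-- `G l` lies over the flipping locus -/
def Ov (W : Pm D N d) (j : ℕ) (l : Fin W.r) : Prop := ∀ y ∈ W.G l, D.Fl j (W.p j y)

section pm

variable (W : Pm D N d) {j : ℕ} {l : Fin W.r} {x y : W.T}

theorem ov_of_lt (hj : j < N) (h : W.a j l < W.a (j + 1) l) : Ov W j l := fun y hy =>
  by_contra fun a => h.ne (by simp only [Glc.Pm₀.a, W.const j hj l ⟨y, hy, a⟩])

theorem exists_ov (hj : j < N) (h : D.Fl j (W.p j y)) : ∃ l, y ∈ W.G l ∧ Ov W j l :=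
  (W.strict j hj y h).imp fun _ a => ⟨a.1, ov_of_lt W hj a.2⟩

theorem not_fl (hj : j < N) (h : ¬ Ov W j l) (hy : ∀ k ≠ l, y ∉ W.G k) : ¬ D.Fl j (W.p j y) :=
  fun a => (exists_ov W hj a).elim fun k b => h ((not_not.1 fun c => hy k c b.1) ▸ b.2)

theorem lt_of_ov (hj : j < N) (h : Ov W j l) : W.a j l < W.a (j + 1) l := by
  obtain ⟨y, hy⟩ := W.gen_one l
  obtain ⟨k, a, b⟩ := W.strict j hj y (h y ((hy l).2 rfl))
  rwa [(hy k).1 a] at b

theorem closed_fl (hj : j < N) : IsClosed {y | D.Fl j (W.p j y)} := by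
  have h : {y | D.Fl j (W.p j y)} = ⋃ l : {l // Ov W j l}, W.G l := by
    refine Subset.antisymm (fun y hy => ?_) (iUnion_subset fun l => l.2)
    obtain ⟨l, a, b⟩ := exists_ov W hj hy
    exact mem_iUnion.2 ⟨⟨l, b⟩, a⟩
  exact h ▸ isClosed_iUnion_of_finite fun l => W.closed l

theorem fn_sub (hj : j < N) (h : ¬ D.Fl j (W.p j y)) :
    Fn _ (W.p (j + 1)) y ⊆ Fn _ (W.p j) y := by
  rintro g ⟨φ, h1, h2⟩
  have hF := Glc.flipR_amin (D.S.flip j) (D.S.hc j)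
  obtain ⟨ψ, h3, h4⟩ := hF.small'.iso _ φ (by rwa [W.comm j hj]) h1
  refine ⟨_, hF.small.holo _ ψ (W.comm j hj y ▸ h3), ?_⟩
  filter_upwards [h2, (W.hol (j + 1) hj).1.continuousAt.eventually h4] with x a b
  exact a.trans (b.trans (congrArg ψ (W.comm j hj x)))

theorem sat {J i : ℕ} (hJ : J ≤ i) (hi : i ≤ N) (e : W.p J y = W.p J x)
    (h : ∀ j, J ≤ j → j < i → ¬ D.Fl j (W.p j x)) : W.p i y = W.p i x := by
  induction i, hJ using Nat.le_induction with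
  | base => exact e
  | succ i hJ ih =>
    refine (Glc.flipR_amin (D.S.flip i) (D.S.hc i)).small'.inj _ _ ?_ ?_
    · rw [W.comm i hi]
      exact h i hJ i.lt_succ_self
    · rw [W.comm i hi, W.comm i hi, ih (by omega) fun j a b => h j a (by omega)]

theorem chain {J m : ℕ} (H : ∀ j l, J ≤ j → j < N → Ov W j l →
      ¬ RkG d _ (W.p (j + 1)) (W.G l) m) {i : ℕ} (hJ : J ≤ i) (hi : i ≤ N)
    (h : RkG d _ (W.p i) (W.G l) m) :
    RkG d _ (W.p J) (W.G l) m ∧ ∀ j, J ≤ j → j < i → ¬ Ov W j l := by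
  induction i, hJ using Nat.le_induction with
  | base => exact ⟨h, fun j a b => absurd a b.not_ge⟩
  | succ i hJ ih =>
    have h1 : ¬ Ov W i l := fun a => H i l hJ hi a h
    obtain ⟨y, a, -, c⟩ := h.gen W.snc (W.hol _ hi).1
    obtain ⟨h2, h3⟩ := ih (by omega) ⟨y, a.of_sub (fn_sub W hi (not_fl W hi h1 c))⟩
    exact ⟨h2, fun j a b => (Nat.lt_succ_iff_lt_or_eq.1 b).elim (h3 j a) fun c => c ▸ h1⟩

end pm

theorem tower (T : Tw D d) {J N : ℕ} (h : J ≤ N) : ∃ π, Bm (T.T N).toMf (T.T J).toMf π ∧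
    ∀ j ≤ J, ∀ y, (T.T J).p j (π y) = (T.T N).p j y := by
  induction N, h using Nat.le_induction with
  | base => exact ⟨_, bm_id _, fun _ _ _ => rfl⟩
  | succ N hN ih =>
    obtain ⟨π, h1, h2⟩ := ih
    exact ⟨_, bm_comp (bm_md (T.h N).toMd) h1, fun j hj y =>
      (h2 j hj _).trans ((T.h N).hp j (hj.trans hN) y)⟩

theorem im_sub (T : Tw D d) {j N : ℕ} (h : j + 1 ≤ N) :
    Im (T.T (j + 1)) j ⊆ Im (T.T N) j ∧ Im' (T.T N) j ⊆ Im' (T.T (j + 1)) j := by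
  obtain ⟨π, h1, h2⟩ := tower T h
  constructor
  · rintro _ ⟨y, hy, rfl⟩
    obtain ⟨x, rfl⟩ := h1.surj y
    exact ⟨x, by rwa [mem_ofPred_eq, ← h2 j j.le_succ], (h2 j j.le_succ x).symm⟩
  · rintro _ ⟨y, hy, rfl⟩
    exact ⟨π y, by rwa [mem_ofPred_eq, h2 j j.le_succ], h2 _ le_rfl y⟩

theorem rk_iff (h : StRkTw) (T : Tw D d) {j N : ℕ} (hj : j ≤ N) (m : ℕ) :
    RkT d _ ((T.T N).p j) m ↔ RkT d _ ((T.T 0).p 0) m := by
  rw [h.2 D N d _ j m hj]
  clear hj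
  induction N with
  | zero => rfl
  | succ N ih => exact (h.1 D _ _ d _ _ (T.h N).toHom₀ 0 m N.zero_le).trans ih

end SixH

open SixH

theorem sec6_of (hC : StCnt) (hF : StFibX) (h1 : StB1) (h2 : StB2) (hR : StRkTw) : StSec6 := by
  intro D d m J T hd r1 r2 H
  obtain ⟨k, rfl⟩ : ∃ k, d = k + 2 := ⟨d - 2, by have := r1.le; omega⟩
  obtain ⟨h, hh⟩ := hC k (T.T J).toMf (by omega)
  by_contra hn
  have hinf : {i | J ≤ i ∧ ¬ DimLe _ m (Im (T.T (i + 1)) i)}.Infinite :=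
    Set.infinite_of_forall_exists_gt fun a => by
      by_contra hc
      exact hn ⟨max J (a + 1), fun j hj => by_contra fun b => hc ⟨j, ⟨by omega, b⟩, by omega⟩⟩
  obtain ⟨B, hB, hc⟩ := hinf.exists_subset_card_eq (h + 1)
  obtain ⟨N, hN⟩ : ∃ N, J ≤ N ∧ ∀ i ∈ B, i < N := ⟨max J (B.sup id + 1), by omega, fun i hi => by
    have : i ≤ B.sup id := Finset.le_sup (f := id) hi
    omega⟩
  obtain ⟨π, b1, b2⟩ := tower T hN.1
  have H' : ∀ j l, J ≤ j → j < N → Ov (T.T N) j l →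
      ¬ RkG (k + 2) _ ((T.T N).p (j + 1)) ((T.T N).G l) (m + 1) := fun j l a b c =>
    (h1 _ (T.T N).toMf _ _ m ((T.T N).hol _ b)).2 l ((H j a).mono
      ((image_mono c).trans (im_sub T b).2))
  have SAT : ∀ i, J ≤ i → i < N → ∀ x y, π y = π x →
      (∀ j, J ≤ j → j < i → ¬ D.Fl j ((T.T N).p j x)) → (T.T N).p i y = (T.T N).p i x :=
    fun i a b x y e => sat _ a b.le (by rw [← b2 J le_rfl, ← b2 J le_rfl, e])
  have key : ∀ i ∈ B, ∃ l, Ov (T.T N) i l ∧ (∀ j, J ≤ j → j < i → ¬ Ov (T.T N) j l) ∧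
      RkG (k + 2) (XH (k + 2) (T.T J).T) π ((T.T N).G l) (k + 1) := fun i hi => by
    have a := (hB hi).1
    have b := hN.2 i hi
    obtain ⟨l, l1, l2⟩ : ∃ l, Ov (T.T N) i l ∧
        RkG (k + 2) _ ((T.T N).p i) ((T.T N).G l) (m + 1) := by
      by_contra hc
      have : Nonempty (D.S.X i).pt := Nonempty.map ((T.T N).p i) inferInstance
      refine (hB hi).2 ((dimLe_iUnion fun l : {l // Ov (T.T N) i l} => h2 _ (T.T N).toMf _ _ m l hd
        ((T.T N).hol i b.le) fun c => hc ⟨l, l.2, c⟩).mono ((im_sub T b).1.trans ?_))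
      rintro _ ⟨y, hy, rfl⟩
      obtain ⟨l, c, e⟩ := exists_ov _ b hy
      exact mem_iUnion.2 ⟨⟨l, e⟩, y, c, rfl⟩
    obtain ⟨c1, c2⟩ := chain _ H' a b.le l2
    obtain ⟨x₀, x1, -, x2⟩ := c1.gen (T.T N).snc ((T.T N).hol J hN.1).1
    let S : Set (T.T N).T := ⋃ j : Ico J i, {y | D.Fl j ((T.T N).p j y)}
    have s1 : IsClosed S := isClosed_iUnion_of_finite fun j => closed_fl _ (j.2.2.trans b)
    have s2 : ∀ x, π x ∈ (π '' S)ᶜ → ∀ j, J ≤ j → j < i → ¬ D.Fl j ((T.T N).p j x) :=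
      fun x hx j u v w => hx ⟨x, mem_iUnion.2 ⟨⟨j, u, v⟩, w⟩, rfl⟩
    obtain ⟨l', d1, y, d2, d3⟩ := hF (k + 1) (T.T N).toMf _ (XH (k + 2) (T.T J).T) ((T.T N).p J) π
      (π '' S)ᶜ {l | Ov (T.T N) i l} (m + 1) x₀ l ((T.T N).hol J hN.1) b1.hol
      (s1.isCompact.image b1.hol.1).isClosed.isOpen_compl
      (fun x g ⟨φ, u, v⟩ => ⟨_, ((T.T J).hol J le_rfl).2 _ φ (by rwa [b2 J le_rfl]),
        v.mono fun z w => w.trans (congrArg φ (b2 J le_rfl z).symm)⟩)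
      (fun x y u _ e ⟨l, v, w⟩ => (exists_ov _ b (by
        rw [sat _ a b.le e (s2 x u)]; exact v x w)).imp fun _ z => ⟨z.2, z.1⟩)
      (rkT_bm b1) (fun c => r2 ((rk_iff hR T hN.1 _).1 c)) (by
        rintro ⟨y, u, e⟩
        obtain ⟨⟨j, v, w⟩, z⟩ := mem_iUnion.1 u
        have f := fun j u v => not_fl _ (lt_trans v b) (c2 j u v) x2
        exact f j v w (SAT j v (w.trans b) x₀ y e (fun j' p q => f j' p (q.trans w)) ▸ z)) l1 x1
    obtain ⟨_, _, _, d4⟩ := id d3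
    exact ⟨l', d1, fun j u v w => s2 y d2 j u v (w y d4.mem), y, d3⟩
  have : Nonempty (Fin (T.T N).r) := (Finset.card_pos.1 (hc ▸ h.succ_pos)).elim fun i hi =>
    (key i hi).elim fun l _ => ⟨l⟩
  choose! Q q1 q2 q3 using key
  have h3 := hh (T.T N).toMf π _ ((T.T N).p N) m (B.image Q) b1 ((T.T N).hol N le_rfl)
    ((rk_iff hR T le_rfl _).2 r1) fun l hl => by
      obtain ⟨i, hi, rfl⟩ := Finset.mem_image.1 hl
      refine ⟨q3 i hi, fun l' hs c => ?_⟩
      obtain ⟨x, hx⟩ := (T.T N).gen_one l'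
      have f := fun j u v => not_fl _ v ((chain _ H' hN.1 le_rfl c).2 j u v) (y := x)
        fun k a b => a ((hx k).1 b)
      obtain ⟨y, u, e⟩ := hs ⟨x, (hx l').2 rfl, rfl⟩
      exact f i (hB hi).1 (hN.2 i hi) (SAT i (hB hi).1 (hN.2 i hi) x y e
        (fun j p q => f j p (q.trans (hN.2 i hi))) ▸ q1 i hi y u)
  rw [Finset.card_image_of_injOn (f := Q) fun i hi j hj e => le_antisymm
    (not_lt.1 fun c => q2 i hi j (hB hj).1 c (e ▸ q1 j hj))
    (not_lt.1 fun c => q2 j hj i (hB hi).1 c (e ▸ q1 i hi))] at h3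
  omega

/-- the map of a stratum to the dlt model has full rank -/
theorem SixH.rkT_dlt {D : Dat} {N d : ℕ} {T : Pm D N d} {W : Pm D N 4} {I : Finset (Fin W.r)}
    (E : Glc.Emb T W I) {Y : CSp} {q : W.T → Y.pt} {ex : Finset (Fin W.r)} (h : W.Dlt Y q ex) :
    RkT d Y (fun y => q (E.ι y)) d := by
  obtain ⟨y₀⟩ : Nonempty T.T := inferInstance
  obtain ⟨y, hy⟩ := (T.freqU y₀).exists
  have h1 : E.ι y ∈ (⋃ l ∈ ex, W.G l)ᶜ := fun a => by
    obtain ⟨l, b, c⟩ := mem_iUnion₂.1 a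
    by_cases e : l ∈ I
    · exact (h.klt l b).ne' (W.a_of (E.lc l e N le_rfl))
    · obtain ⟨k, -, u⟩ := (E.mem y l e).1 c
      exact hy (mem_iUnion.2 ⟨k, u⟩)
  have : Nonempty W.T := inferInstance
  have h2 : ∀ a : W.T → ℂ, ∀ᶠ x in 𝓝 (E.ι y),
      a (Function.invFunOn q (⋃ l ∈ ex, W.G l)ᶜ (q x)) = a x := fun a =>
    (h.res.emb.isOpen.eventually_mem h1).mono fun x hx =>
      congrArg a (h.res.emb.inj.leftInvOn_invFunOn hx)
  refine ⟨y, rkAt_imm E.hol (E.imm y _ _ (at_chartAt _) (at_chartAt _)) fun a ha =>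
    ⟨fun z => a (Function.invFunOn q (⋃ l ∈ ex, W.G l)ᶜ z), (h.res.emb.hol _ h1 _ (at_chartAt _)
      _).2 ((ha _ (at_chartAt _)).congr ((Slc.tendsto_symm (at_chartAt _)).eventually
        ((h2 a).mono fun _ b => b.symm))),
      (E.hol.1.continuousAt.eventually (h2 a)).mono fun _ b => b.symm⟩⟩

theorem six_of (hC : StCj) (hS : StSec6) (hE : StEnd2) (hR : StRkTw) (h1 : StB1) :
    Glc.StSix := by
  intro D d S J hd H
  have off : ∀ J', (∀ j ≥ J', ∀ y, ¬ D.Fl j ((S.T (j + 1)).p j y)) → ∃ J', S.Off J' :=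
    fun J' h => ⟨J', fun j hj y => by
      obtain ⟨x, rfl⟩ := (S.h j).surj y
      rw [(S.h j).hp j le_rfl]
      exact h j hj x⟩
  by_cases h2 : d ≤ 1
  · refine Or.inl (off J fun j hj y hy => ?_)
    obtain ⟨l, -, a⟩ := (S.T (j + 1)).strict j j.lt_succ_self y hy
    obtain ⟨d', b, -⟩ := H j hj l a
    omega
  obtain ⟨k, rfl⟩ : ∃ k, d = k + 1 := ⟨d - 1, by omega⟩
  have key := fun j (hj : j ≥ J) => (S.dlt j).fac.elim fun g hg =>
    have hq : HolX (k + 1) (S.Y j) fun y => S.q j ((S.E (j + 1)).ι y) :=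
      Glc.HolX.comp ⟨(S.dlt j).res.cont, (S.dlt j).res.hol⟩ (S.E (j + 1)).hol
    hC D j k (S.T (j + 1)) (S.Y j) _ g (by omega) hq hg.1
      (fun y => (hg.2 _).trans ((S.E (j + 1)).hp _ y).symm) (rkT_dlt (S.E (j + 1)) (S.dlt j))
      fun l hl => by
        obtain ⟨d', a, b⟩ := H j hj l (lt_of_ov _ j.lt_succ_self hl)
        obtain rfl : k = d' + 1 := by omega
        exact (h1 _ (S.T (j + 1)).toMf _ _ d' hq).2 l b
  have rk := fun j N hj => rk_iff hR S.toTw (j := j) (N := N) hj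
  by_cases r2 : RkT (k + 1) _ ((S.T 0).p 0) 2
  swap
  · exact Or.inl (off J fun j hj y hy => ((key j hj).1 (mt (rk _ _ le_rfl 2).1 r2)).subset
      ⟨y, hy, rfl⟩)
  by_cases r3 : RkT (k + 1) _ ((S.T 0).p 0) 3
  swap
  · have a := fun j hj => (key j hj).2 0 (mt (rk _ _ le_rfl 3).1 r3)
    obtain ⟨J', b⟩ := hS D _ 0 J S.toTw hd r2 r3 a
    exact Or.inl (off (max J J') fun j hj => hE D j _ _ ((rk _ _ j.le_succ 2).2 r2)
      (b j (by omega)) (a j (by omega)))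
  have r4 : ¬ RkT (k + 1) _ ((S.T 0).p 0) 4 := fun a => by have := a.le; omega
  have a := fun j hj => (key j hj).2 1 (mt (rk _ _ le_rfl 4).1 r4)
  obtain ⟨J', b⟩ := hS D _ 1 J S.toTw hd r3 r4 a
  refine Or.inr ⟨by have := r3.le; omega, max J J', fun j hj => ⟨fun c =>
    (h1 _ (S.T j).toMf _ _ 2 ((S.T j).hol j le_rfl)).1 c ((rk _ _ le_rfl 3).2 r3), fun l hl => ?_⟩⟩
  have c := ov_of_lt _ j.lt_succ_self hl
  exact ⟨(b j (by omega)).mono (image_mono c), (a j (by omega)).mono (image_mono c)⟩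

end Vale.Agent.P277Z.Rk
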