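import Vale.Agent.P277Z.Glc.Sk
import Vale.Agent.P277Z.Slc.Basic

/-!
# P277, block GLC: ranks of maps on strata (definitions and statements)

Families of functions are finite sets of functions.
-/

open scoped Manifold ContDiff Topology Classical
open Vale.Agent.P277 hiding Amin IsFlipR
open Vale.Agent.P277.HD Vale.Agent.P277.PH
open Vale.Agent.P272.K Vale.Agent.P285.H281.FD Set Filter
open Vale.Agent.P277Z.Slc (LEq Ind dd ForW)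
open Vale.Agent.P277Z.Glc (HolX HolM Mf Dat Pm Tw)
open Vale.Agent.P277Z.Val (IsSnc)
open Vale.Agent.P277.H60.Z (XH)

noncomputable section

namespace Vale.Agent.P277Z.Rk

section defs

variable {W : Type}

/-- `y` lies on the fibre of the family `s` through `x` -/
def Fib (s : Finset (W → ℂ)) (x y : W) : Prop := ∀ g ∈ s, g y = g x

/-- the square of the distance of the values of the family `T` -/
def nr (T : Finset (W → ℂ)) (x₀ x : W) : ℝ := ∑ g ∈ T, ‖g x - g x₀‖ ^ 2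

variable [TopologicalSpace W]

/-- the germs at `x` which are pulled back from `X` -/
def Fn (X : CSp) (p : W → X.pt) (x : W) : Set (W → ℂ) :=
  {g | ∃ φ, X.Hol φ (p x) ∧ g =ᶠ[𝓝 x] φ ∘ p}

variable (n : ℕ) [ChartedSpace (Cm n) W]

/-- the functions in `s` are holomorphic at `x`, with independent differentials -/
def IndS (s : Finset (W → ℂ)) (x : W) : Prop := Ind n (fun g : s => (g : W → ℂ)) x

/-- the same for the restrictions to the smooth hypersurface `G` -/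
def IndG (G : Set W) (s : Finset (W → ℂ)) (x : W) : Prop :=
  x ∈ G ∧ ∃ ζ, LEq n G x ζ ∧ ζ ∉ s ∧ IndS n (insert ζ s) x

/-- the fibre of `s` through `x` is smooth and transversal to the `G k` -/
def RegS {κ : Type} (G : κ → Set W) (V : Set W) (s : Finset (W → ℂ)) (x : W) : Prop :=
  ∀ y ∈ V, Fib s x y → IndS n s y ∧ ∀ k, y ∈ G k → IndG n (G k) s y

/-- the map with the coordinates `T` is proper near `x₀` -/
structure Box (V : Set W) (T : Finset (W → ℂ)) (x₀ : W) (r₀ : ℝ) : Prop where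
  isOpen : IsOpen V
  hol : ∀ g ∈ T, ∀ x ∈ V, Hol n g x
  mem : x₀ ∈ V
  pos : 0 < r₀
  cpt : IsCompact {x | x ∈ V ∧ nr T x₀ x ≤ r₀}

/-- `u` is a Green function of `∑ l, c l • G l` on `V` -/
def Green {κ : Type} [Fintype κ] (G : κ → Set W) (V : Set W) (c : κ → ℝ) (u : W → ℝ) : Prop :=
  ∀ y ∈ V, ∃ (ζ : κ → W → ℂ) (F : W → ℂ), (∀ l, LEq n (G l) y (ζ l)) ∧ Hol n F y ∧
    ∀ᶠ y' in 𝓝 y, y' ∉ ⋃ l, G l → u y' = (F y').re + ∑ l, c l * Real.log ‖ζ l y'‖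

/-- `p` has rank at least `m` at `x` -/
def RkAt (X : CSp) (p : W → X.pt) (m : ℕ) (x : W) : Prop :=
  ∃ s : Finset (W → ℂ), ↑s ⊆ Fn X p x ∧ s.card = m ∧ IndS n s x

/-- the restriction of `p` to `G` has rank at least `m` at `x` -/
def RkGAt (X : CSp) (p : W → X.pt) (G : Set W) (m : ℕ) (x : W) : Prop :=
  ∃ s : Finset (W → ℂ), ↑s ⊆ Fn X p x ∧ s.card = m ∧ IndG n G s x

/-- `p` has rank at least `m` -/
def RkT (X : CSp) (p : W → X.pt) (m : ℕ) : Prop := ∃ x, RkAt n X p m x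

/-- the restriction of `p` to `G` has rank at least `m` -/
def RkG (X : CSp) (p : W → X.pt) (G : Set W) (m : ℕ) : Prop := ∃ x, RkGAt n X p G m x

/-- `T` are the coordinates of a local model of `X` -/
structure Crd (X : CSp) (p : W → X.pt) (V : Set W) (T : Finset (W → ℂ)) (x₀ : W) : Prop where
  isOpen : IsOpen V
  mem : x₀ ∈ V
  fn : ∀ x ∈ V, ↑T ⊆ Fn X p x
  span : ∀ x ∈ V, ∀ g ∈ Fn X p x, ∀ e : Chart n W, At e x →
    dd g e x ∈ Submodule.span ℂ ((fun g => dd g e x) '' ↑T)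
  inj : ∀ x ∈ V, ∀ y ∈ V, Fib T x y → p y = p x
  cpt : ∃ r₀ > 0, ∃ K ⊆ V, IsCompact K ∧ ∀ x ∈ V, nr T x₀ x ≤ r₀ → x ∈ K

end defs

/-! ### local statements -/

/-- (LC) -/
def StLC : Prop := ForW fun n W _ _ => ∀ (s : Finset (W → ℂ)) (g : W → ℂ) (x : W), IndS n s x →
  Hol n g x → (∀ᶠ y in 𝓝 x, Fib s x y → g ∈ s ∨ ¬ IndS n (insert g s) y) →
  ∀ᶠ y in 𝓝 x, Fib s x y → g y = g x

/-- (NLC) -/
def StNLC : Prop := ForW fun n W _ _ => ∀ (s : Finset (W → ℂ)) (g : W → ℂ) (x : W), g ∉ s →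
  IndS n (insert g s) x → ¬ ∀ᶠ y in 𝓝 x, Fib s x y → g y = g x

/-- (MP) the maximum principle on a smooth fibre -/
def StMP : Prop := ForW fun n W _ _ => ∀ (V : Set W) (T s H : Finset (W → ℂ)) (x₀ x : W)
  (r₀ r : ℝ) (u : W → ℝ), Box n V T x₀ r₀ → r ≤ r₀ → (∀ g ∈ s, ∀ y ∈ V, Hol n g y) →
  (∀ g ∈ H, ∀ y ∈ V, Hol n g y) → x ∈ V → nr T x₀ x ≤ r →
  (∀ y ∈ V, Fib s x y → IndS n s y ∧ (Fib H x y → PHAt n u y)) →
  (∀ᶠ y in 𝓝 x, Fib s x y → Fib H x y) → (¬ ∀ᶠ y in 𝓝 x, Fib s x y → Fib T x y) →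
  ∃ y ∈ V, Fib s x y ∧ Fib H x y ∧ nr T x₀ y = r ∧ u x + nr T x₀ x ≤ u y + r

/-- (GEN) general fibres -/
def StGen : Prop := ForW fun n W _ _ => ∀ (κ : Type) [Fintype κ] (G : κ → Set W) (V : Set W)
  (s H : Finset (W → ℂ)) (x : W), IsSnc n G → IsOpen V → (∀ g ∈ s, ∀ y ∈ V, Hol n g y) →
  Disjoint H s → IndS n (H ∪ s) x → ∃ᶠ y in 𝓝 x, Fib H x y ∧ RegS n G V s y

/-- (SPH) a general sphere in a general fibre misses the `G k`, `k ∈ A` -/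
def StSph : Prop := ForW fun n W _ _ => ∀ (κ : Type) [Fintype κ] (G : κ → Set W) (A : Set κ)
  (V : Set W) (T s : Finset (W → ℂ)) (x₀ x₁ : W) (r₀ : ℝ) (l : κ), IsSnc n G → Box n V T x₀ r₀ →
  (∀ g ∈ s, ∀ y ∈ V, Hol n g y) →
  (∀ k ∈ A, ∀ y ∈ V, ∀ g ∈ T, g ∉ s → ¬ IndG n (G k) (insert g s) y) →
  x₁ ∈ V → nr T x₀ x₁ < r₀ → IndG n (G l) s x₁ →
  ∃ x ∈ V, IndG n (G l) s x ∧ (∀ k ≠ l, x ∉ G k) ∧ ∃ r, nr T x₀ x < r ∧ r ≤ r₀ ∧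
    ∀ y ∈ V, Fib s x y → nr T x₀ y = r → ∀ k ∈ A, y ∉ G k

/-- (FIB) the dimension of the fibres -/
def StFib : Prop := ForW fun n W _ _ => ∀ (κ : Type) [Fintype κ] (G : κ → Set W) (A : Set κ)
  (V : Set W) (T P s₀ : Finset (W → ℂ)) (x₀ : W) (r₀ : ℝ) (l : κ), IsSnc n G → Box n V T x₀ r₀ →
  P ⊆ T → (∀ x ∈ V, ∀ y ∈ V, Fib P x y → (∃ k ∈ A, x ∈ G k) → ∃ k ∈ A, y ∈ G k) →
  (∀ x ∈ V, ∃ᶠ y in 𝓝 x, ∃ s ⊆ T, s.card = n ∧ IndS n s y) →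
  (∀ y ∈ V, ∀ s ⊆ P, IndS n s y → s.card ≤ s₀.card + 1) →
  l ∈ A → s₀ ⊆ P → IndG n (G l) s₀ x₀ →
  ∃ k ∈ A, ∃ y ∈ V, ∃ s ⊆ T, s.card + 1 = n ∧ IndG n (G k) s y

/-- (GREEN) contracted divisors have no Green function -/
def StGreen : Prop := ForW fun n W _ _ => ∀ (κ : Type) [Fintype κ] (G : κ → Set W) (c : κ → ℝ)
  (u : W → ℝ) (V : Set W) (T : Finset (W → ℂ)) (x₀ : W) (r₀ : ℝ) (m : ℕ) (l : κ), IsSnc n G →
  Box n V T x₀ r₀ → Green n G V c u →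
  (∀ x ∈ V, ∃ᶠ y in 𝓝 x, ∃ s ⊆ T, s.card = m + 2 ∧ IndS n s y) →
  (∀ k, c k ≠ 0 → ∀ y ∈ V, ∀ s ⊆ T, IndG n (G k) s y → s.card ≤ m) → x₀ ∈ G l → c l = 0

/-! ### maps to complex spaces -/

/-- (CRD) -/
def StCrd : Prop := ∀ (d : ℕ) (W : Mf d) (X : CSp) (p : W.T → X.pt) (O : Set X.pt) (x₀ : W.T),
  HolX d X p → IsOpen O → p x₀ ∈ O → ∃ V T, Crd d X p V T x₀ ∧ V ⊆ p ⁻¹' O

/-- (DENSE) -/
def StDense : Prop := ∀ (d : ℕ) (W : Mf d) (X : CSp) (p : W.T → X.pt) (m : ℕ), HolX d X p →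
  RkT d X p m → ∀ x, ∃ᶠ y in 𝓝 x, RkAt d X p m y

/-- (B1) -/
def StB1 : Prop := ∀ (d : ℕ) (W : Mf d) (X : CSp) (p : W.T → X.pt) (m : ℕ), HolX d X p →
  (DimLe X m (range p) → ¬ RkT d X p (m + 1)) ∧
    ∀ l, DimLe X m (p '' W.G l) → ¬ RkG d X p (W.G l) (m + 1)

/-- (B2) -/
def StB2 : Prop := ∀ (d : ℕ) (W : Mf d) (X : CSp) (p : W.T → X.pt) (m : ℕ) (l : Fin W.r), d ≤ 3 →
  HolX d X p → ¬ RkG d X p (W.G l) (m + 1) → DimLe X m (p '' W.G l)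

/-- (FIBX) -/
def StFibX : Prop := ∀ (d : ℕ) (W : Mf (d + 1)) (X Y : CSp) (p : W.T → X.pt) (q : W.T → Y.pt)
  (O : Set Y.pt) (A : Set (Fin W.r)) (v : ℕ) (x₀ : W.T) (l : Fin W.r), HolX (d + 1) X p →
  HolX (d + 1) Y q → IsOpen O → (∀ x, Fn X p x ⊆ Fn Y q x) →
  (∀ x y, q x ∈ O → q y ∈ O → p y = p x → (∃ k ∈ A, x ∈ W.G k) → ∃ k ∈ A, y ∈ W.G k) →
  RkT (d + 1) Y q (d + 1) → ¬ RkT (d + 1) X p (v + 2) → q x₀ ∈ O → l ∈ A →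
  RkGAt (d + 1) X p (W.G l) v x₀ → ∃ k ∈ A, ∃ y, q y ∈ O ∧ RkGAt (d + 1) Y q (W.G k) d y

/-- (GREENX) -/
def StGreenX : Prop := ∀ (d : ℕ) (W : Mf d) (X X' : CSp) (p : W.T → X.pt) (p' : W.T → X'.pt)
  (O : Set X.pt) (O' : Set X'.pt) (c : Fin W.r → ℝ) (u : W.T → ℝ) (m : ℕ) (x₀ : W.T)
  (l : Fin W.r), HolX d X p → HolX d X' p' → IsOpen O → IsOpen O' →
  Green d W.G (p ⁻¹' O ∩ p' ⁻¹' O') c u → RkT d X p (m + 2) →
  (∀ k, c k ≠ 0 → ∀ y (s : Finset (W.T → ℂ)), ↑s ⊆ Fn X p y ∪ Fn X' p' y →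
    IndG d (W.G k) s y → s.card ≤ m) →
  p x₀ ∈ O → p' x₀ ∈ O' → x₀ ∈ W.G l → c l = 0

/-- a modification, an isomorphism outside the `G' l` -/
structure Bm {d : ℕ} (W' W : Mf d) (π : W'.T → W.T) : Prop where
  hol : HolM d d π
  surj : Function.Surjective π
  pre : ∀ y, π y ∈ ⋃ l, W.G l → y ∈ ⋃ l, W'.G l
  inj : ∀ y ∉ ⋃ l, W'.G l, ∀ y', π y' = π y → y' = y
  det : ∀ y ∉ ⋃ l, W'.G l, ∀ (e' : Chart d W'.T) (e : Chart d W.T), At e' y → At e (π y) →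
    (fderiv ℂ (fun z => e (π (e'.symm z))) (e' y)).det ≠ 0

/-- `π` is a local isomorphism at `y` -/
def Et {d : ℕ} {W' W : Mf d} (π : W'.T → W.T) (y : W'.T) : Prop :=
  ∀ (e' : Chart d W'.T) (e : Chart d W.T), At e' y → At e (π y) →
    (fderiv ℂ (fun z => e (π (e'.symm z))) (e' y)).det ≠ 0

/-- (CRIT) the critical values of a modification -/
def StCrit : Prop := ∀ (k : ℕ) (W' W : Mf (k + 2)) (π : W'.T → W.T), k ≤ 1 → Bm W' W π →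
  T3.ThinM (k + 2) k (π '' {y | ¬ Et π y}) ∧ IsClosed {y | ¬ Et π y} ∧
    (∀ y, Et π y → ∀ y', π y' = π y → y' = y) ∧
    ∀ l, RkG (k + 2) (XH (k + 2) W.T) π (W'.G l) (k + 1) →
      ∃ y ∈ W'.G l, Et π y ∧ ∀ l' ≠ l, y ∉ W'.G l'

/-- (LB) the divisor of the image of a component -/
def StLb : Prop := ∀ (k : ℕ) (W' W : Mf (k + 2)) (π : W'.T → W.T) (l : Fin W'.r), k ≤ 1 →
  Bm W' W π → RkG (k + 2) (XH (k + 2) W.T) π (W'.G l) (k + 1) →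
  ∃ (L : Bd W.T) (s : L.ι → W.T → ℂ) (μ : Fin W'.r → ℕ), IsLB (k + 2) L ∧ IsSec (k + 2) L s ∧
    (∀ y i, π y ∈ L.U i → Glc.Mon (k + 2) W'.G (fun l' => μ l') (fun y' => s i (π y')) y) ∧
    μ l ≠ 0 ∧ (∀ l' ≠ l, RkG (k + 2) (XH (k + 2) W.T) π (W'.G l') (k + 1) → μ l' = 0) ∧
    ∀ l', μ l' ≠ 0 → π '' W'.G l' ⊆ π '' W'.G l

/-- (CNT) the number of independent contracted divisors is bounded -/
def StCnt : Prop := ∀ (k : ℕ) (W : Mf (k + 2)), k ≤ 1 → ∃ h : ℕ, ∀ (W' : Mf (k + 2))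
  (π : W'.T → W.T) (X : CSp) (p : W'.T → X.pt) (m : ℕ) (Q : Finset (Fin W'.r)), Bm W' W π →
  HolX (k + 2) X p → RkT (k + 2) X p (m + 2) →
  (∀ l ∈ Q, RkG (k + 2) (XH (k + 2) W.T) π (W'.G l) (k + 1) ∧
    ∀ l', π '' W'.G l' ⊆ π '' W'.G l → ¬ RkG (k + 2) X p (W'.G l') (m + 1)) → Q.card ≤ h

/-! ### the output -/

/-- the part of the flipping locus in the image of the model -/
def Im {D : Dat} {N d : ℕ} (W : Pm D N d) (j : ℕ) : Set (D.S.X j).pt :=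
  W.p j '' {y | D.Fl j (W.p j y)}

/-- the part of the flipped locus in the image of the model -/
def Im' {D : Dat} {N d : ℕ} (W : Pm D N d) (j : ℕ) : Set (D.S.X (j + 1)).pt :=
  W.p (j + 1) '' {y | D.Fl j (W.p j y)}

/-- (CJ) end of section 5: if the components over the flip are contracted on `Y`, the flipped locus
has codimension two in the image -/
def StCj : Prop := ∀ (D : Dat) (j d : ℕ) (W : Pm D (j + 1) (d + 1)) (Y : CSp) (q : W.T → Y.pt)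
  (g : Y.pt → (D.S.X (j + 1)).pt), d ≤ 2 → HolX (d + 1) Y q → (∀ z, HolMap Y _ g z) →
  (∀ y, g (q y) = W.p (j + 1) y) → RkT (d + 1) Y q (d + 1) →
  (∀ l, (∀ y ∈ W.G l, D.Fl j (W.p j y)) → ¬ RkG (d + 1) Y q (W.G l) d) →
  (¬ RkT (d + 1) _ (W.p (j + 1)) 2 → Im' W j = ∅) ∧
    ∀ m, ¬ RkT (d + 1) _ (W.p (j + 1)) (m + 3) → DimLe _ m (Im' W j)

/-- (RKTW) the rank is constant in a tower -/
def StRkTw : Prop :=
  (∀ (D : Dat) (N' N d : ℕ) (W' : Pm D N' d) (W : Pm D N d) (_ : Glc.Hom₀ W' W) (j m : ℕ), j ≤ N →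
    (RkT d _ (W'.p j) m ↔ RkT d _ (W.p j) m)) ∧
  ∀ (D : Dat) (N d : ℕ) (W : Pm D N d) (j m : ℕ), j ≤ N → (RkT d _ (W.p j) m ↔ RkT d _ (W.p 0) m)

/-- (SEC6) the rank count -/
def StSec6 : Prop := ∀ (D : Dat) (d m J : ℕ) (T : Tw D d), d ≤ 3 →
  RkT d _ ((T.T 0).p 0) (m + 2) → ¬ RkT d _ ((T.T 0).p 0) (m + 3) →
  (∀ j ≥ J, DimLe _ m (Im' (T.T (j + 1)) j)) → ∃ J', ∀ j ≥ J', DimLe _ m (Im (T.T (j + 1)) j)

/-- (END2) the case of surfaces -/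
def StEnd2 : Prop := ∀ (D : Dat) (j d : ℕ) (W : Pm D (j + 1) d), RkT d _ (W.p j) 2 →
  DimLe _ 0 (Im W j) → DimLe _ 0 (Im' W j) → ∀ y, ¬ D.Fl j (W.p j y)

end Vale.Agent.P277Z.Rk
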